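import Vale.Agent.P344.H120.GRank

/-!
# Separating sets are large
-/

namespace Vale.Agent.P344

open Finset

variable {n : ℕ}

/-- The size of a separating set. -/
theorem Circuit.card_le_of_separates {A : Matrix (Fin n) (Fin n) ℂ}
    (hA : A * A.conjTranspose = (n : ℂ) • 1) (hflat : ∀ j k, ‖A j k‖ = 1)
    (C : Circuit (Fin n) (Fin n)) (hC : C.Comp A) (D : Finset (Option (Fin n) ⊕ C.G))
    (I O : Finset (Fin n)) (hD : C.Separates (D : Set (Option (Fin n) ⊕ C.G)) I O) :
    (I.card * O.card : ℝ) ≤ n * D.card := by
  classical
  obtain ⟨f, hf, hout⟩ := hC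
  -- the restriction to `I` of a vector
  let r : (Fin n → ℂ) →ₗ[ℂ] EuclideanSpace ℂ (Fin n) :=
    { toFun := fun v => WithLp.toLp 2 (fun i => if i ∈ I then v i else 0)
      map_add' := by
        intro u v
        ext i
        by_cases h : i ∈ I <;> simp [h]
      map_smul' := by
        intro c v
        ext i
        by_cases h : i ∈ I <;> simp [h] }
  let W : Submodule ℂ (EuclideanSpace ℂ (Fin n)) :=
    Submodule.span ℂ ((D.image fun d => r (C.cell f d) : Finset _) : Set _)
  have hWD : Module.finrank ℂ W ≤ D.card :=
    (finrank_span_finset_le_card _).trans Finset.card_image_le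
  have hmemD : ∀ d ∈ D, r (C.cell f d) ∈ W := fun d hd =>
    Submodule.subset_span (Finset.mem_coe.2 (Finset.mem_image_of_mem _ hd))
  -- gates
  have gate_step : ∀ g : C.G, (∀ p ∈ (C.gate g).args, r (C.cell f p) ∈ W) → r (f g) ∈ W := by
    intro g h
    rw [hf g]
    cases hg : C.gate g with
    | add p q =>
      rw [hg] at h
      have h1 := h p (by simp [Gate.args])
      have h2 := h q (by simp [Gate.args])
      simpa [Gate.eval] using W.add_mem h1 h2
    | sub p q =>
      rw [hg] at h
      have h1 := h p (by simp [Gate.args])
      have h2 := h q (by simp [Gate.args])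
      simpa [Gate.eval] using W.sub_mem h1 h2
    | smul c p =>
      rw [hg] at h
      have h1 := h p (by simp [Gate.args])
      simpa [Gate.eval] using W.smul_mem c h1
  -- cells that cannot be reached
  have key : ∀ (t : ℕ) (c : Option (Fin n) ⊕ C.G), (Sum.elim (fun _ => 0) C.depth c) ≤ t →
      (∀ i ∈ I, ¬ C.Avoids (D : Set _) (Sum.inl (some i)) c) → r (C.cell f c) ∈ W := by
    intro t
    induction t with
    | zero =>
      intro c hc h
      rcases c with (_ | i) | g
      · have : r (C.cell f (Sum.inl none)) = 0 := by simp [Circuit.cell]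
        rw [this]
        exact W.zero_mem
      · by_cases hD' : (Sum.inl (some i) : Option (Fin n) ⊕ C.G) ∈ D
        · exact hmemD _ hD'
        by_cases hi : i ∈ I
        · exact absurd ⟨by simpa using hD', Relation.ReflTransGen.refl⟩ (h i hi)
        · have : r (C.cell f (Sum.inl (some i))) = 0 := by
            ext j
            by_cases hj : j ∈ I
            · have : j ≠ i := by rintro rfl; exact hi hj
              simp [r, Circuit.cell, hj, this]
            · simp [r, hj]
          rw [this]
          exact W.zero_mem
      · have := C.depth_pos g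
        simp at hc
        omega
    | succ t ih =>
      intro c hc h
      rcases c with (_ | i) | g
      · exact ih _ (Nat.zero_le _) h
      · exact ih _ (Nat.zero_le _) h
      · by_cases hD' : (Sum.inr g : Option (Fin n) ⊕ C.G) ∈ D
        · exact hmemD _ hD'
        refine gate_step g fun p hp => ih p ?_ fun i hi hav => h i hi ?_
        · rcases p with p | g'
          · exact Nat.zero_le _
          · have := C.depth_lt g g' hp
            simp at hc ⊢
            omega
        · exact ⟨hav.1, hav.2.tail ⟨⟨g, rfl, hp⟩, by simpa using hD'⟩⟩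
  have hrow : ∀ k ∈ O, (WithLp.toLp 2 (fun i => if i ∈ I then A k i else 0) :
      EuclideanSpace ℂ (Fin n)) ∈ W := by
    intro k hk
    have h1 := key _ (C.out k) le_rfl fun i hi => hD i (by simpa using hi) k (by simpa using hk)
    have h2 : C.cell f (C.out k) = A k := funext fun i => hout k i
    rw [h2] at h1
    exact h1
  refine (card_mul_card_le hA hflat I O W hrow).trans ?_
  have : (Module.finrank ℂ W : ℝ) ≤ D.card := by exact_mod_cast hWD
  gcongr

end Vale.Agent.P344
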