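import Vale.Agent.P344.H952.CDefs

/-!
# Lower bounds that see only the graph of a circuit: definitions
-/

namespace Vale.Agent.P344

variable {ι κ : Type}

/-- Cell `a` is read by cell `b`, which is then a gate. -/
def Circuit.Reads (C : Circuit ι κ) (a b : Option ι ⊕ C.G) : Prop :=
  ∃ g, b = Sum.inr g ∧ a ∈ (C.gate g).args

/-- There is a path of cells from `a` to `b` (possibly `a = b`), each read by the next. -/
def Circuit.Reaches (C : Circuit ι κ) (a b : Option ι ⊕ C.G) : Prop :=
  Relation.ReflTransGen C.Reads a b

/-- There is such a path no cell of which, the two ends included, lies in `D`. -/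
def Circuit.Avoids (C : Circuit ι κ) (D : Set (Option ι ⊕ C.G)) (a b : Option ι ⊕ C.G) : Prop :=
  a ∉ D ∧ Relation.ReflTransGen (fun x y => C.Reads x y ∧ y ∉ D) a b

/-- The inputs from which there is a path to gate `g`. -/
def Circuit.insOf (C : Circuit ι κ) (g : C.G) : Set ι :=
  {i | C.Reaches (Sum.inl (some i)) (Sum.inr g)}

/-- The outputs to which there is a path from gate `g`. -/
def Circuit.outsOf (C : Circuit ι κ) (g : C.G) : Set κ :=
  {k | C.Reaches (Sum.inr g) (C.out k)}

/-- Every path from an input in `I` to an output in `O` meets `D`. -/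
def Circuit.Separates (C : Circuit ι κ) (D : Set (Option ι ⊕ C.G)) (I : Set ι) (O : Set κ) :
    Prop :=
  ∀ i ∈ I, ∀ k ∈ O, ¬ C.Avoids D (Sum.inl (some i)) (C.out k)

/-- The width of the circuit at gate `g`: the least number of cells that meet every path from an
input that reaches `g` to an output reached from `g`. -/
noncomputable def Circuit.width (C : Circuit ι κ) (g : C.G) : ℕ :=
  sInf {m | ∃ D : Finset (Option ι ⊕ C.G), D.card = m ∧
    C.Separates (D : Set (Option ι ⊕ C.G)) (C.insOf g) (C.outsOf g)}

/-- The gate is an addition or a subtraction. -/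
def Gate.IsAdd {α : Type} : Gate α → Prop
  | .add _ _ => True
  | .sub _ _ => True
  | .smul _ _ => False

instance {α : Type} : DecidablePred (Gate.IsAdd (α := α)) := fun g =>
  match g with
  | .add _ _ => isTrue trivial
  | .sub _ _ => isTrue trivial
  | .smul _ _ => isFalse not_false

/-- The additions and subtractions of a circuit. -/
def Circuit.adds (C : Circuit ι κ) : Finset C.G := Finset.univ.filter fun g => (C.gate g).IsAdd

/-- `C` computes the matrix `A`: its outputs are the rows of `A`. -/
def Circuit.Comp [Fintype ι] [DecidableEq ι] [Fintype κ] (C : Circuit ι κ) (A : Matrix κ ι ℂ) :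
    Prop :=
  ∃ f, C.IsForms f ∧ ∀ j k, C.cell f (C.out j) k = A j k

end Vale.Agent.P344
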