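import Vale.Agent.P344.H120.GPlace
import Vale.Agent.P344.H952.CFinal

/-!
# Imbalance, least size
-/

namespace Vale.Agent.P344

open Finset

variable {n : ℕ}

/-- The number of inputs from which there is a path to cell `c`. -/
noncomputable def Circuit.support {ι κ : Type} [Fintype ι] (C : Circuit ι κ)
    (c : Option ι ⊕ C.G) : ℕ :=
  Nat.card {i : ι // C.Reaches (Sum.inl (some i)) c}

/-- **Imbalance**: if each gate that reads `c` depends on at most `ρ(c)` times as many inputs as
`c` does, then `n log n ≤ ∑ log ρ(c)`. -/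
theorem Circuit.imbalance_bound {A : Matrix (Fin n) (Fin n) ℂ}
    (hA : A * A.conjTranspose = (n : ℂ) • 1) (hflat : ∀ j k, ‖A j k‖ = 1)
    (C : Circuit (Fin n) (Fin n)) (hC : C.Comp A) (ρ : Option (Fin n) ⊕ C.G → ℝ)
    (hρ : ∀ c, 1 ≤ ρ c)
    (h : ∀ g, ∀ c ∈ (C.gate g).args, 0 < C.support c →
      (C.support (Sum.inr g) : ℝ) ≤ ρ c * C.support c) :
    (n : ℝ) * Real.logb 2 n ≤ ∑ c, Real.logb 2 (ρ c) := by
  classical
  rcases Nat.eq_zero_or_pos n with hn | hn
  · subst hn
    simp only [Nat.cast_zero, zero_mul]
    exact Finset.sum_nonneg fun c _ => Real.logb_nonneg (by norm_num) (hρ c)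
  have hn0 : (0 : ℝ) < n := by exact_mod_cast hn
  have hle : ∀ c, C.support c ≤ n := by
    intro c
    have := Nat.card_le_card_of_injective (fun i : {i : Fin n // C.Reaches (Sum.inl (some i)) c} =>
      (i : Fin n)) Subtype.val_injective
    simpa [Circuit.support] using this
  set φ : Option (Fin n) ⊕ C.G → ℝ := fun c =>
    if C.support c = 0 then Real.logb 2 n else Real.logb 2 (C.support c) with hφ
  have hφle : ∀ c, φ c ≤ Real.logb 2 n := by
    intro c
    simp only [hφ]
    split_ifs with h0
    · exact le_rfl
    · have h1 : (0 : ℝ) < C.support c := by exact_mod_cast Nat.pos_of_ne_zero h0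
      exact Real.logb_le_logb_of_le (by norm_num) h1 (by exact_mod_cast hle c)
  have key := C.potential_bound hA hflat hC φ (fun c => Real.logb 2 (ρ c))
    (fun c => Real.logb_nonneg (by norm_num) (hρ c)) (by
      intro g c hc
      by_cases h0 : C.support c = 0
      · have h1 : φ c = Real.logb 2 n := by simp [hφ, h0]
        rw [h1]
        have h2 : 0 ≤ Real.logb 2 (ρ c) := Real.logb_nonneg (by norm_num) (hρ c)
        linarith [hφle (Sum.inr g)]
      · have hpos : 0 < C.support c := Nat.pos_of_ne_zero h0
        have h1 := h g c hc hpos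
        have hg0 : C.support (Sum.inr g) ≠ 0 := by
          have : 0 < C.support (Sum.inr g) := by
            have hne : Nonempty {i : Fin n // C.Reaches (Sum.inl (some i)) c} := by
              by_contra hcon
              rw [not_nonempty_iff] at hcon
              exact h0 (by simp [Circuit.support])
            obtain ⟨i, hi⟩ := hne
            have : Nonempty {i : Fin n // C.Reaches (Sum.inl (some i)) (Sum.inr g)} :=
              ⟨⟨i, hi.tail ⟨g, rfl, hc⟩⟩⟩
            exact Nat.card_pos
          exact this.ne'
        have e1 : φ (Sum.inr g) = Real.logb 2 (C.support (Sum.inr g)) := by simp [hφ, hg0]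
        have e2 : φ c = Real.logb 2 (C.support c) := by simp [hφ, h0]
        rw [e1, e2, add_comm, ← Real.logb_mul (by linarith [hρ c]) (by exact_mod_cast h0)]
        exact Real.logb_le_logb_of_le (by norm_num)
          (by exact_mod_cast Nat.pos_of_ne_zero hg0) h1)
  have e1 : ∀ i : Fin n, φ (Sum.inl (some i)) = 0 := by
    intro i
    have : C.support (Sum.inl (some i)) = 1 := by
      have h1 : ∀ j : Fin n, C.Reaches (Sum.inl (some j)) (Sum.inl (some i)) ↔ j = i := by
        intro j
        constructor
        · intro hj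
          simpa using Circuit.reaches_inl hj
        · rintro rfl
          exact Relation.ReflTransGen.refl
      simp only [Circuit.support, h1]
      simp
    simp [hφ, this]
  have e2 : ∀ k : Fin n, φ (C.out k) = Real.logb 2 n := by
    intro k
    have : C.support (C.out k) = n := by
      have h1 : ∀ j : Fin n, C.Reaches (Sum.inl (some j)) (C.out k) ↔ True := fun j =>
        iff_true_intro (C.reach_all hA hflat hC j k)
      simp only [Circuit.support, h1]
      simp
    simp [hφ, this]
  simp only [e1, e2, sub_zero, Finset.sum_const, Finset.card_univ, Fintype.card_fin,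
    nsmul_eq_mul] at key
  have h2 := le_of_mul_le_mul_left key hn0
  refine le_trans ?_ h2
  exact mul_le_mul_of_nonneg_left (le_max_left _ _) hn0.le

theorem isLeast_comp {n : ℕ} (hn : 1 ≤ n) :
    IsLeast {s | ∃ C : Circuit (Fin n) (Fin n), C.Comp (dftMat n) ∧ Fintype.card C.G = s}
      (L n) := by
  have h := isLeast_L hn
  constructor
  · obtain ⟨D, K, C, f, hh, hr, hs, _⟩ := h.1
    exact ⟨C, ⟨f, hr.forms, hr.out⟩, hs⟩
  · rintro s ⟨C, ⟨f, hf, hout⟩, hs⟩
    obtain ⟨hh, hsens⟩ := C.exists_sens
    refine h.2 ⟨∑ g, C.depth g, (∑ g, C.cond f hh g) / Real.sqrt n, C, f, hh,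
      ⟨hf, hsens, hout⟩, hs, ?_, fun _ _ _ _ => Set.mem_univ _, ?_⟩
    · intro g
      exact Finset.single_le_sum (f := C.depth) (fun _ _ => Nat.zero_le _) (Finset.mem_univ g)
    · intro g
      have hsq : Real.sqrt n ≠ 0 := by
        have : (0 : ℝ) < n := by exact_mod_cast hn
        positivity
      rw [div_mul_cancel₀ _ hsq]
      exact Finset.single_le_sum (f := fun g => C.cond f hh g)
        (fun g _ => mul_nonneg (nrm_nn _) (Gate.size_nonneg _ _)) (Finset.mem_univ g)

end Vale.Agent.P344
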