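import Vale.Agent.P344.H120.GTree

/-!
# Width, unique paths, least depth, and placements
-/

namespace Vale.Agent.P344

open Finset

variable {n : ℕ}

theorem Circuit.Avoids.reaches {ι κ : Type} {C : Circuit ι κ} {D : Set (Option ι ⊕ C.G)}
    {a b : Option ι ⊕ C.G} (h : C.Avoids D a b) : C.Reaches a b := by
  obtain ⟨_, h⟩ := h
  induction h with
  | refl => exact Relation.ReflTransGen.refl
  | tail _ hbc ih => exact ih.tail hbc.1

/-- The cells that meet every path from `I` to `O`. -/
theorem Circuit.width_spec {ι κ : Type} [Fintype ι] [DecidableEq ι] (C : Circuit ι κ) (g : C.G) :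
    ∃ D : Finset (Option ι ⊕ C.G), D.card = C.width g ∧
      C.Separates (D : Set (Option ι ⊕ C.G)) (C.insOf g) (C.outsOf g) := by
  have h : (C.width g) ∈ {m | ∃ D : Finset (Option ι ⊕ C.G), D.card = m ∧
      C.Separates (D : Set (Option ι ⊕ C.G)) (C.insOf g) (C.outsOf g)} := by
    refine Nat.sInf_mem ⟨_, Finset.univ, rfl, ?_⟩
    intro i _ k _ hav
    exact hav.1 (by simp)
  exact h

theorem Circuit.reach_all {A : Matrix (Fin n) (Fin n) ℂ}
    (hA : A * A.conjTranspose = (n : ℂ) • 1) (hflat : ∀ j k, ‖A j k‖ = 1)
    (C : Circuit (Fin n) (Fin n)) (hC : C.Comp A) (i k : Fin n) :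
    C.Reaches (Sum.inl (some i)) (C.out k) := by
  classical
  by_contra hcon
  have h := C.card_le_of_separates hA hflat hC ∅ {i} {k} (by
    intro i' hi' k' hk' hav
    simp only [Finset.coe_singleton, Set.mem_singleton_iff] at hi' hk'
    subst hi' hk'
    exact hcon hav.reaches)
  simp at h
  linarith

open Classical in
/-- **The areas**: `n² log n` is at most the sum over the additions of the number of inputs that
reach it times the number of outputs it reaches. -/
theorem Circuit.area_bound {A : Matrix (Fin n) (Fin n) ℂ}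
    (hA : A * A.conjTranspose = (n : ℂ) • 1) (hflat : ∀ j k, ‖A j k‖ = 1)
    (C : Circuit (Fin n) (Fin n)) (hC : C.Comp A) :
    (n : ℝ) * (n * Real.logb 2 n) ≤ ∑ g ∈ C.adds,
      (((Finset.univ.filter fun i => i ∈ C.insOf g).card : ℝ) *
        (Finset.univ.filter fun k => k ∈ C.outsOf g).card) := by
  -- every input reaches every output
  have hreach := C.reach_all hA hflat hC
  have h1 : ∀ k : Fin n, (n : ℝ) * Real.logb 2 n ≤
      ∑ g ∈ C.adds, if k ∈ C.outsOf g then
        ((Finset.univ.filter fun i => i ∈ C.insOf g).card : ℝ) else 0 := by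
    intro k
    have h := C.tree_bound _ (C.out k) le_rfl Finset.univ fun i _ => hreach i k
    rw [Finset.card_univ, Fintype.card_fin, Finset.sum_filter] at h
    exact h
  calc (n : ℝ) * (n * Real.logb 2 n) = ∑ _k : Fin n, (n : ℝ) * Real.logb 2 n := by
        rw [Finset.sum_const, Finset.card_univ, Fintype.card_fin, nsmul_eq_mul]
    _ ≤ ∑ k : Fin n, ∑ g ∈ C.adds, (if k ∈ C.outsOf g then
        ((Finset.univ.filter fun i => i ∈ C.insOf g).card : ℝ) else 0) :=
        Finset.sum_le_sum fun k _ => h1 k
    _ = ∑ g ∈ C.adds, ∑ k : Fin n, (if k ∈ C.outsOf g then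
        ((Finset.univ.filter fun i => i ∈ C.insOf g).card : ℝ) else 0) := Finset.sum_comm
    _ = _ := by
        refine Finset.sum_congr rfl fun g _ => ?_
        rw [← Finset.sum_filter, Finset.sum_const, nsmul_eq_mul, mul_comm]

/-- **The widths**: `n log n` is at most the sum of the widths at the additions. -/
theorem Circuit.width_bound {A : Matrix (Fin n) (Fin n) ℂ}
    (hA : A * A.conjTranspose = (n : ℂ) • 1) (hflat : ∀ j k, ‖A j k‖ = 1)
    (C : Circuit (Fin n) (Fin n)) (hC : C.Comp A) :
    (n : ℝ) * Real.logb 2 n ≤ ∑ g ∈ C.adds, (C.width g : ℝ) := by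
  classical
  rcases Nat.eq_zero_or_pos n with hn | hn
  · subst hn
    simp only [Nat.cast_zero, zero_mul]
    exact Finset.sum_nonneg fun _ _ => Nat.cast_nonneg _
  have hn0 : (0 : ℝ) < n := by exact_mod_cast hn
  have h1 := C.area_bound hA hflat hC
  have h2 : ∀ g ∈ C.adds, (((Finset.univ.filter fun i => i ∈ C.insOf g).card : ℝ) *
      (Finset.univ.filter fun k => k ∈ C.outsOf g).card) ≤ n * (C.width g : ℝ) := by
    intro g _
    obtain ⟨D, hD, hsep⟩ := C.width_spec g
    rw [← hD]
    refine C.card_le_of_separates hA hflat hC D _ _ ?_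
    simpa using hsep
  have h3 := h1.trans (Finset.sum_le_sum h2)
  rw [← Finset.mul_sum] at h3
  exact le_of_mul_le_mul_left h3 hn0

/-- No input reaches both arguments of an addition that reaches an output. -/
def Circuit.UniquePaths {ι κ : Type} (C : Circuit ι κ) : Prop :=
  ∀ (g : C.G) (p q : Option ι ⊕ C.G), C.gate g = .add p q ∨ C.gate g = .sub p q →
    (∃ k, C.Reaches (Sum.inr g) (C.out k)) →
    ∀ i, ¬ (C.Reaches (Sum.inl (some i)) p ∧ C.Reaches (Sum.inl (some i)) q)

theorem Circuit.UniquePaths.width_le {ι κ : Type} [Fintype ι] [DecidableEq ι] {C : Circuit ι κ}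
    (hU : C.UniquePaths) (w : C.G) : C.width w ≤ 1 := by
  classical
  refine Nat.sInf_le ⟨{Sum.inr w}, by simp, ?_⟩
  -- cells reached from `w` which reach an output
  have key : ∀ (t : ℕ) (c : Option ι ⊕ C.G), (Sum.elim (fun _ => 0) C.depth c : ℕ) ≤ t →
      C.Reaches (Sum.inr w) c → (∃ k, C.Reaches c (C.out k)) →
      ∀ i ∈ C.insOf w, ¬ C.Avoids {Sum.inr w} (Sum.inl (some i)) c := by
    intro t
    induction t with
    | zero =>
      intro c hc hwc _ i _ _
      have h1 := hwc.depth_le
      have h2 := C.depth_pos w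
      simp at h1
      omega
    | succ t ih =>
      intro c hc hwc hout i hi hav
      rcases c with x | g
      · exact absurd (Circuit.reaches_inl hwc) (by simp)
      rcases Circuit.reaches_inr hwc with h | ⟨p, hp, hwp⟩
      · -- `c = w`
        rcases Relation.ReflTransGen.cases_tail hav.2 with h' | ⟨_, _, h'⟩
        · exact absurd h' (by simp)
        · exact h'.2 (by rw [h]; rfl)
      -- the last step of the path that avoids `w`
      rcases Relation.ReflTransGen.cases_tail hav.2 with h' | ⟨b, hb, ⟨g', hg', hbg⟩, _⟩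
      · exact absurd h' (by simp)
      obtain rfl := Sum.inr_injective hg'
      have havb : C.Avoids {Sum.inr w} (Sum.inl (some i)) b := ⟨hav.1, hb⟩
      have hib : C.Reaches (Sum.inl (some i)) b := havb.reaches
      have hip : C.Reaches (Sum.inl (some i)) p := Relation.ReflTransGen.trans hi hwp
      have hpout : ∀ p' ∈ (C.gate g).args, ∃ k, C.Reaches p' (C.out k) := by
        intro p' hp'
        obtain ⟨k, hk⟩ := hout
        exact ⟨k, Relation.ReflTransGen.head ⟨g, rfl, hp'⟩ hk⟩
      by_cases hbp : b = p
      · subst hbp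
        refine ih b ?_ hwp (hpout b hp) i hi havb
        have := Circuit.Reads.depth_lt hp
        simp at hc
        omega
      · -- then `g` is an addition of `p` and `b`
        cases hg : C.gate g with
        | add p₁ q₁ =>
          rw [hg] at hp hbg
          have h1 := hU g p₁ q₁ (Or.inl hg) hout i
          simp only [Gate.args, List.mem_cons, List.not_mem_nil, or_false] at hp hbg
          rcases hp with rfl | rfl <;> rcases hbg with rfl | rfl
          · exact hbp rfl
          · exact h1 ⟨hip, hib⟩
          · exact h1 ⟨hib, hip⟩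
          · exact hbp rfl
        | sub p₁ q₁ =>
          rw [hg] at hp hbg
          have h1 := hU g p₁ q₁ (Or.inr hg) hout i
          simp only [Gate.args, List.mem_cons, List.not_mem_nil, or_false] at hp hbg
          rcases hp with rfl | rfl <;> rcases hbg with rfl | rfl
          · exact hbp rfl
          · exact h1 ⟨hip, hib⟩
          · exact h1 ⟨hib, hip⟩
          · exact hbp rfl
        | smul z p₁ =>
          rw [hg] at hp hbg
          simp only [Gate.args, List.mem_cons, List.not_mem_nil, or_false] at hp hbg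
          exact hbp (hbg.trans hp.symm)
  intro i hi k hk hav
  exact key _ _ le_rfl hk ⟨k, Relation.ReflTransGen.refl⟩ i hi (by simpa using hav)

theorem Circuit.UniquePaths.bound {A : Matrix (Fin n) (Fin n) ℂ}
    (hA : A * A.conjTranspose = (n : ℂ) • 1) (hflat : ∀ j k, ‖A j k‖ = 1)
    {C : Circuit (Fin n) (Fin n)} (hC : C.Comp A) (hU : C.UniquePaths) :
    (n : ℝ) * Real.logb 2 n ≤ C.adds.card := by
  refine (C.width_bound hA hflat hC).trans ?_
  calc ∑ g ∈ C.adds, (C.width g : ℝ) ≤ ∑ _g ∈ C.adds, (1 : ℝ) :=
        Finset.sum_le_sum fun g _ => by exact_mod_cast hU.width_le g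
    _ = C.adds.card := by simp

/-- `d` bounds the number of additions on every path to a cell. -/
def Circuit.IsAddDepth {ι κ : Type} (C : Circuit ι κ) (d : Option ι ⊕ C.G → ℕ) : Prop :=
  ∀ g, (∀ p q, C.gate g = .add p q ∨ C.gate g = .sub p q → d p + 1 ≤ d (Sum.inr g) ∧
      d q + 1 ≤ d (Sum.inr g)) ∧
    ∀ z p, C.gate g = .smul z p → d p ≤ d (Sum.inr g)

theorem Circuit.IsAddDepth.card_le {ι κ : Type} [Fintype ι] [DecidableEq ι] {C : Circuit ι κ}
    {d : Option ι ⊕ C.G → ℕ} (hd : C.IsAddDepth d) [∀ c : Option ι ⊕ C.G,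
      DecidablePred fun i => C.Reaches (Sum.inl (some i)) c] : ∀ (t : ℕ)
    (c : Option ι ⊕ C.G), (Sum.elim (fun _ => 0) C.depth c : ℕ) ≤ t →
    (Finset.univ.filter fun i => C.Reaches (Sum.inl (some i)) c).card ≤ 2 ^ d c := by
  intro t
  induction t with
  | zero =>
    intro c hc
    rcases c with x | g
    · refine le_trans (Finset.card_le_one.2 ?_) Nat.one_le_two_pow
      intro i hi j hj
      have h1 := Circuit.reaches_inl (Finset.mem_filter.1 hi).2
      have h2 := Circuit.reaches_inl (Finset.mem_filter.1 hj).2
      simpa using h1.trans h2.symm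
    · have := C.depth_pos g
      simp at hc
      omega
  | succ t ih =>
    intro c hc
    rcases c with x | g
    · exact ih _ (Nat.zero_le _)
    have two : ∀ p q, (C.gate g).args = [p, q] → d p + 1 ≤ d (Sum.inr g) →
        d q + 1 ≤ d (Sum.inr g) →
        (Finset.univ.filter fun i => C.Reaches (Sum.inl (some i)) (Sum.inr g)).card ≤
          2 ^ d (Sum.inr g) := by
      intro p q hpq h1 h2
      have hp := Circuit.Reads.depth_lt (show p ∈ (C.gate g).args by simp [hpq])
      have hq := Circuit.Reads.depth_lt (show q ∈ (C.gate g).args by simp [hpq])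
      have e1 := ih p (by simp at hc; omega)
      have e2 := ih q (by simp at hc; omega)
      have hsub : (Finset.univ.filter fun i => C.Reaches (Sum.inl (some i)) (Sum.inr g)) ⊆
          (Finset.univ.filter fun i => C.Reaches (Sum.inl (some i)) p) ∪
          (Finset.univ.filter fun i => C.Reaches (Sum.inl (some i)) q) := by
        intro i hi
        rcases Circuit.reaches_inr (Finset.mem_filter.1 hi).2 with h | ⟨p', hp', h⟩
        · exact absurd h (by simp)
        · rw [hpq] at hp'
          simp only [List.mem_cons, List.not_mem_nil, or_false] at hp'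
          rw [Finset.mem_union, Finset.mem_filter, Finset.mem_filter]
          rcases hp' with rfl | rfl
          · exact Or.inl ⟨Finset.mem_univ _, h⟩
          · exact Or.inr ⟨Finset.mem_univ _, h⟩
      have e3 := (Finset.card_le_card hsub).trans (Finset.card_union_le _ _)
      have e4 : 2 ^ (d p + 1) ≤ 2 ^ d (Sum.inr g) := Nat.pow_le_pow_right (by norm_num) h1
      have e5 : 2 ^ (d q + 1) ≤ 2 ^ d (Sum.inr g) := Nat.pow_le_pow_right (by norm_num) h2
      rw [pow_succ] at e4 e5
      omega
    cases hg : C.gate g with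
    | add p q =>
      have := (hd g).1 p q (Or.inl hg)
      exact two p q (by rw [hg]; rfl) this.1 this.2
    | sub p q =>
      have := (hd g).1 p q (Or.inr hg)
      exact two p q (by rw [hg]; rfl) this.1 this.2
    | smul z p =>
      have hdp := (hd g).2 z p hg
      have hp := Circuit.Reads.depth_lt (show p ∈ (C.gate g).args by simp [hg, Gate.args])
      have e1 := ih p (by simp at hc; omega)
      refine (Finset.card_le_card ?_).trans (e1.trans (Nat.pow_le_pow_right (by norm_num) hdp))
      intro i hi
      rcases Circuit.reaches_inr (Finset.mem_filter.1 hi).2 with h | ⟨p', hp', h⟩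
      · exact absurd h (by simp)
      · rw [hg] at hp'
        simp only [Gate.args, List.mem_cons, List.not_mem_nil, or_false] at hp'
        subst hp'
        exact Finset.mem_filter.2 ⟨Finset.mem_univ _, h⟩

/-- A circuit of least addition depth has unique paths. -/
theorem Circuit.IsAddDepth.uniquePaths {ι κ : Type} [Fintype ι] [DecidableEq ι]
    {C : Circuit ι κ} {d : Option ι ⊕ C.G → ℕ} (hd : C.IsAddDepth d)
    (hout : ∀ k, 2 ^ d (C.out k) ≤ Fintype.card ι)
    (hreach : ∀ i k, C.Reaches (Sum.inl (some i)) (C.out k)) : C.UniquePaths := by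
  classical
  intro g p q hg ⟨k, hk⟩ i ⟨hip, hiq⟩
  set R : (Option ι ⊕ C.G) → Finset ι := fun c =>
    Finset.univ.filter fun i => C.Reaches (Sum.inl (some i)) c with hR
  have hle : ∀ c, (R c).card ≤ 2 ^ d c := fun c => hd.card_le _ c le_rfl
  have hargs : ∀ (g : C.G) (p q : Option ι ⊕ C.G), C.gate g = .add p q ∨ C.gate g = .sub p q →
      R (Sum.inr g) ⊆ R p ∪ R q := by
    intro g p q hg j hj
    rcases Circuit.reaches_inr (Finset.mem_filter.1 hj).2 with h | ⟨p', hp', h⟩
    · exact absurd h (by simp)
    · have : p' = p ∨ p' = q := by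
        rcases hg with hg | hg <;> rw [hg] at hp' <;> simpa [Gate.args] using hp'
      rw [Finset.mem_union, Finset.mem_filter, Finset.mem_filter]
      rcases this with rfl | rfl
      · exact Or.inl ⟨Finset.mem_univ _, h⟩
      · exact Or.inr ⟨Finset.mem_univ _, h⟩
  -- the deficit at `g`
  have h0 : (R (Sum.inr g)).card < 2 ^ d (Sum.inr g) := by
    have h1 := (hd g).1 p q hg
    have h2 := Finset.card_le_card (hargs g p q hg)
    have h3 := Finset.card_union_add_card_inter (R p) (R q)
    have h4 : 0 < (R p ∩ R q).card :=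
      Finset.card_pos.2 ⟨i, by simp [hR, hip, hiq]⟩
    have h5 := hle p
    have h6 := hle q
    have e4 : 2 ^ (d p + 1) ≤ 2 ^ d (Sum.inr g) := Nat.pow_le_pow_right (by norm_num) h1.1
    have e5 : 2 ^ (d q + 1) ≤ 2 ^ d (Sum.inr g) := Nat.pow_le_pow_right (by norm_num) h1.2
    rw [pow_succ] at e4 e5
    omega
  -- the deficit persists
  have h1 : ∀ c, C.Reaches (Sum.inr g) c → (R c).card < 2 ^ d c := by
    intro c hc
    induction hc with
    | refl => exact h0
    | @tail b c _ hbc ih =>
      obtain ⟨g', rfl, hb⟩ := hbc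
      cases hg' : C.gate g' with
      | add p' q' =>
        have a1 := (hd g').1 p' q' (Or.inl hg')
        have a2 := Finset.card_le_card (hargs g' p' q' (Or.inl hg'))
        have a3 := Finset.card_union_le (R p') (R q')
        have a4 := hle p'
        have a5 := hle q'
        have e4 : 2 ^ (d p' + 1) ≤ 2 ^ d (Sum.inr g') := Nat.pow_le_pow_right (by norm_num) a1.1
        have e5 : 2 ^ (d q' + 1) ≤ 2 ^ d (Sum.inr g') := Nat.pow_le_pow_right (by norm_num) a1.2
        rw [pow_succ] at e4 e5
        rw [hg'] at hb
        simp only [Gate.args, List.mem_cons, List.not_mem_nil, or_false] at hb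
        rcases hb with rfl | rfl <;> omega
      | sub p' q' =>
        have a1 := (hd g').1 p' q' (Or.inr hg')
        have a2 := Finset.card_le_card (hargs g' p' q' (Or.inr hg'))
        have a3 := Finset.card_union_le (R p') (R q')
        have a4 := hle p'
        have a5 := hle q'
        have e4 : 2 ^ (d p' + 1) ≤ 2 ^ d (Sum.inr g') := Nat.pow_le_pow_right (by norm_num) a1.1
        have e5 : 2 ^ (d q' + 1) ≤ 2 ^ d (Sum.inr g') := Nat.pow_le_pow_right (by norm_num) a1.2
        rw [pow_succ] at e4 e5
        rw [hg'] at hb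
        simp only [Gate.args, List.mem_cons, List.not_mem_nil, or_false] at hb
        rcases hb with rfl | rfl <;> omega
      | smul z p' =>
        have a1 := (hd g').2 z p' hg'
        rw [hg'] at hb
        simp only [Gate.args, List.mem_cons, List.not_mem_nil, or_false] at hb
        subst hb
        refine lt_of_le_of_lt (Finset.card_le_card ?_)
          (ih.trans_le (Nat.pow_le_pow_right (by norm_num) a1))
        intro j hj
        rcases Circuit.reaches_inr (Finset.mem_filter.1 hj).2 with h | ⟨p'', hp'', h⟩
        · exact absurd h (by simp)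
        · rw [hg'] at hp''
          simp only [Gate.args, List.mem_cons, List.not_mem_nil, or_false] at hp''
          subst hp''
          exact Finset.mem_filter.2 ⟨Finset.mem_univ _, h⟩
  have h2 := h1 (C.out k) hk
  have h3 : (R (C.out k)).card = Fintype.card ι := by
    rw [← Finset.card_univ]
    congr 1
    exact Finset.filter_true_of_mem fun j _ => hreach j k
  have h4 := hout k
  omega

end Vale.Agent.P344
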