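import Vale.Agent.P344.H120.GMain

/-!
# Potentials
-/

namespace Vale.Agent.P344

open Finset MeasureTheory

variable {n : ℕ}

/-- The cut at height `θ`. -/
theorem Circuit.cut_bound {A : Matrix (Fin n) (Fin n) ℂ}
    (hA : A * A.conjTranspose = (n : ℂ) • 1) (hflat : ∀ j k, ‖A j k‖ = 1)
    (C : Circuit (Fin n) (Fin n)) (hC : C.Comp A) (φ a : Option (Fin n) ⊕ C.G → ℝ)
    (h : ∀ g, ∀ c ∈ (C.gate g).args, φ (Sum.inr g) ≤ φ c + a c) (θ : ℝ) :
    ((Finset.univ.filter fun i => φ (Sum.inl (some i)) ≤ θ).card : ℝ) *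
      (Finset.univ.filter fun k => θ < φ (C.out k)).card ≤
      n * (Finset.univ.filter fun c => φ c ≤ θ ∧ θ < φ c + a c).card := by
  classical
  refine C.card_le_of_separates hA hflat hC _ _ _ ?_
  intro i hi k hk hav
  simp only [Finset.coe_filter, Finset.mem_univ, true_and, Set.mem_ofPred_eq] at hi hk hav
  have key : ∀ c, Relation.ReflTransGen (fun x y => C.Reads x y ∧
      y ∉ {c | φ c ≤ θ ∧ θ < φ c + a c}) (Sum.inl (some i)) c →
      φ c ≤ θ ∧ c ∉ {c | φ c ≤ θ ∧ θ < φ c + a c} := by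
    intro c hc
    induction hc with
    | refl => exact ⟨hi, hav.1⟩
    | @tail b c _ hbc ih =>
      obtain ⟨⟨g, rfl, hb⟩, hc⟩ := hbc
      refine ⟨?_, hc⟩
      have h1 := h g b hb
      have h2 : φ b + a b ≤ θ := by
        by_contra hcon
        exact ih.2 ⟨ih.1, not_le.1 hcon⟩
      linarith
  exact absurd (key _ hav.2).1 (not_le.2 hk)

/-- **Potentials**. -/
theorem Circuit.potential_bound {A : Matrix (Fin n) (Fin n) ℂ}
    (hA : A * A.conjTranspose = (n : ℂ) • 1) (hflat : ∀ j k, ‖A j k‖ = 1)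
    (C : Circuit (Fin n) (Fin n)) (hC : C.Comp A) (φ a : Option (Fin n) ⊕ C.G → ℝ)
    (ha : ∀ c, 0 ≤ a c)
    (h : ∀ g, ∀ c ∈ (C.gate g).args, φ (Sum.inr g) ≤ φ c + a c) :
    ∑ i, ∑ k, max (φ (C.out k) - φ (Sum.inl (some i))) 0 ≤ n * ∑ c, a c := by
  classical
  -- indicator functions
  have hpt : ∀ θ : ℝ, ∑ i, ∑ k, (Set.Ico (φ (Sum.inl (some i))) (φ (C.out k))).indicator
      (fun _ => (1 : ENNReal)) θ ≤
      (n : ENNReal) * ∑ c, (Set.Ico (φ c) (φ c + a c)).indicator (fun _ => (1 : ENNReal)) θ := by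
    intro θ
    have h1 := C.cut_bound hA hflat hC φ a h θ
    have h2 : (Finset.univ.filter fun i => φ (Sum.inl (some i)) ≤ θ).card *
      (Finset.univ.filter fun k => θ < φ (C.out k)).card ≤
      n * (Finset.univ.filter fun c => φ c ≤ θ ∧ θ < φ c + a c).card := by exact_mod_cast h1
    have h3 : ∑ i, ∑ k, (Set.Ico (φ (Sum.inl (some i))) (φ (C.out k))).indicator
        (fun _ => (1 : ENNReal)) θ = ((Finset.univ.filter fun i => φ (Sum.inl (some i)) ≤ θ).card *
      (Finset.univ.filter fun k => θ < φ (C.out k)).card : ℕ) := by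
      have e1 : ∀ i k, (Set.Ico (φ (Sum.inl (some i))) (φ (C.out k))).indicator
          (fun _ => (1 : ENNReal)) θ = (if φ (Sum.inl (some i)) ≤ θ then 1 else 0) *
          (if θ < φ (C.out k) then 1 else 0) := by
        intro i k
        simp only [Set.indicator_apply, Set.mem_Ico]
        by_cases h1 : φ (Sum.inl (some i)) ≤ θ <;> by_cases h2 : θ < φ (C.out k) <;>
          simp [h1, h2]
      simp only [e1]
      rw [← Finset.sum_mul_sum]
      simp only [Finset.sum_ite, Finset.sum_const_zero, add_zero, Finset.sum_const, nsmul_eq_mul,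
        mul_one]
      push_cast
      rfl
    have h4 : ∑ c, (Set.Ico (φ c) (φ c + a c)).indicator (fun _ => (1 : ENNReal)) θ =
        ((Finset.univ.filter fun c => φ c ≤ θ ∧ θ < φ c + a c).card : ℕ) := by
      simp only [Set.indicator_apply, Set.mem_Ico, Finset.sum_ite, Finset.sum_const_zero, add_zero,
        Finset.sum_const, nsmul_eq_mul, mul_one]
    rw [h3, h4]
    exact_mod_cast h2
  have hint := lintegral_mono (μ := volume) hpt
  have hI : ∀ x y : ℝ, ∫⁻ θ, (Set.Ico x y).indicator (fun _ => (1 : ENNReal)) θ =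
      ENNReal.ofReal (y - x) := by
    intro x y
    rw [lintegral_indicator measurableSet_Ico, lintegral_const, Measure.restrict_apply_univ,
      Real.volume_Ico, one_mul]
  have hm : ∀ x y : ℝ, Measurable fun θ => (Set.Ico x y).indicator (fun _ => (1 : ENNReal)) θ :=
    fun x y => measurable_const.indicator measurableSet_Ico
  rw [lintegral_finsetSum _ fun i _ => Finset.measurable_sum _ fun k _ => hm _ _,
    lintegral_const_mul _ (Finset.measurable_sum _ fun c _ => hm _ _),
    lintegral_finsetSum _ fun c _ => hm _ _] at hint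
  have e1 : ∀ i, ∫⁻ θ, ∑ k, (Set.Ico (φ (Sum.inl (some i))) (φ (C.out k))).indicator
      (fun _ => (1 : ENNReal)) θ = ∑ k, ENNReal.ofReal (φ (C.out k) - φ (Sum.inl (some i))) := by
    intro i
    rw [lintegral_finsetSum _ fun k _ => hm _ _]
    simp only [hI]
  simp only [e1, hI, add_sub_cancel_left] at hint
  have e2 : ∀ x : ℝ, ENNReal.ofReal x = ENNReal.ofReal (max x 0) := by
    intro x
    rcases le_total x 0 with hx | hx
    · rw [max_eq_right hx, ENNReal.ofReal_zero, ENNReal.ofReal_of_nonpos hx]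
    · rw [max_eq_left hx]
  simp only [e2 (_ - _)] at hint
  rw [← ENNReal.ofReal_sum_of_nonneg fun c _ => ha c, ← ENNReal.ofReal_natCast,
    ← ENNReal.ofReal_mul (Nat.cast_nonneg _)] at hint
  have e3 : ∑ i, ∑ k, ENNReal.ofReal (max (φ (C.out k) - φ (Sum.inl (some i))) 0) =
      ENNReal.ofReal (∑ i, ∑ k, max (φ (C.out k) - φ (Sum.inl (some i))) 0) := by
    rw [ENNReal.ofReal_sum_of_nonneg fun i _ => Finset.sum_nonneg fun k _ => le_max_right _ _]
    refine Finset.sum_congr rfl fun i _ => ?_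
    rw [ENNReal.ofReal_sum_of_nonneg fun k _ => le_max_right _ _]
  rw [e3] at hint
  exact (ENNReal.ofReal_le_ofReal_iff (mul_nonneg (Nat.cast_nonneg _)
    (Finset.sum_nonneg fun c _ => ha c))).1 hint

end Vale.Agent.P344
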