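import Vale.Agent.P344.H120.GDefs

/-!
# Submatrices of a complex Hadamard matrix have large rank
-/

namespace Vale.Agent.P344

open Finset

/-- If `A` is `n × n` with `A Aᴴ = n` and entries of modulus one, and the rows `k ∈ O` of `A`,
restricted to the columns in `I`, lie in a subspace `W`, then `|I| |O| ≤ n dim W`. -/
theorem card_mul_card_le {n : ℕ} {A : Matrix (Fin n) (Fin n) ℂ}
    (hA : A * A.conjTranspose = (n : ℂ) • 1) (hflat : ∀ j k, ‖A j k‖ = 1)
    (I O : Finset (Fin n)) (W : Submodule ℂ (EuclideanSpace ℂ (Fin n)))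
    (hW : ∀ k ∈ O, (WithLp.toLp 2 (fun i => if i ∈ I then A k i else 0) :
      EuclideanSpace ℂ (Fin n)) ∈ W) :
    (I.card * O.card : ℝ) ≤ n * Module.finrank ℂ W := by
  classical
  set a : Fin n → EuclideanSpace ℂ (Fin n) :=
    fun k => WithLp.toLp 2 (fun i => if i ∈ I then A k i else 0) with ha
  let b := stdOrthonormalBasis ℂ W
  -- the norm of a row
  have hnorm : ∀ k, ‖a k‖ ^ 2 = I.card := by
    intro k
    rw [EuclideanSpace.norm_sq_eq]
    simp only [ha]
    have : ∀ i, ‖(if i ∈ I then A k i else 0)‖ ^ 2 = if i ∈ I then (1 : ℝ) else 0 := by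
      intro i
      split_ifs
      · rw [hflat]; norm_num
      · simp
    simp only [this]
    simp
  -- Parseval in `W`
  have hpars : ∀ k ∈ O, (I.card : ℝ) = ∑ t, ‖inner ℂ (b t : EuclideanSpace ℂ (Fin n)) (a k)‖ ^ 2 := by
    intro k hk
    have h1 := b.sum_sq_norm_inner_right (⟨a k, hW k hk⟩ : W)
    rw [← hnorm k]
    simpa using h1.symm
  -- Bessel for the matrix
  have hbes : ∀ e : EuclideanSpace ℂ (Fin n), ‖e‖ = 1 → ∑ k ∈ O, ‖inner ℂ e (a k)‖ ^ 2 ≤ n := by
    intro e he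
    have hA' : A.conjTranspose * A = (n : ℂ) • 1 := by
      rcases Nat.eq_zero_or_pos n with hn | hn
      · subst hn
        exact Subsingleton.elim _ _
      have hn0 : (n : ℂ) ≠ 0 := by exact_mod_cast hn.ne'
      have h2 : A * ((n : ℂ)⁻¹ • A.conjTranspose) = 1 := by
        rw [Matrix.mul_smul, hA, smul_smul, inv_mul_cancel₀ hn0, one_smul]
      have h3 := mul_eq_one_comm.1 h2
      rw [Matrix.smul_mul] at h3
      rw [← h3, smul_smul, mul_inv_cancel₀ hn0, one_smul]
    -- the vector `v = conj e` restricted to `I`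
    set v : Fin n → ℂ := fun i => if i ∈ I then star (e i) else 0 with hv
    have h1 : ∀ k, inner ℂ e (a k) = A.mulVec v k := by
      intro k
      simp only [PiLp.inner_apply, ha, Matrix.mulVec, dotProduct, hv, RCLike.inner_apply]
      refine Finset.sum_congr rfl fun i _ => ?_
      split_ifs
      · simp
      · simp
    have h2 : ∑ k, ‖A.mulVec v k‖ ^ 2 = n * ∑ i, ‖v i‖ ^ 2 := by
      have key : ∀ w : Fin n → ℂ, ((∑ k, ‖w k‖ ^ 2 : ℝ) : ℂ) = dotProduct (star w) w := by
        intro w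
        simp only [dotProduct, Pi.star_apply, Complex.ofReal_sum]
        refine Finset.sum_congr rfl fun i _ => ?_
        rw [mul_comm, Complex.star_def, Complex.mul_conj, Complex.normSq_eq_norm_sq]
      have : ((∑ k, ‖A.mulVec v k‖ ^ 2 : ℝ) : ℂ) = ((n * ∑ i, ‖v i‖ ^ 2 : ℝ) : ℂ) := by
        rw [key, Complex.ofReal_mul, key, Matrix.star_mulVec, Matrix.dotProduct_mulVec,
          Matrix.vecMul_vecMul, hA', Matrix.vecMul_smul, Matrix.vecMul_one, smul_dotProduct,
          smul_eq_mul]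
        simp
      exact_mod_cast this
    have h3 : ∑ i, ‖v i‖ ^ 2 ≤ 1 := by
      have : (1 : ℝ) = ∑ i, ‖e i‖ ^ 2 := by
        rw [← EuclideanSpace.norm_sq_eq, he]; norm_num
      rw [this]
      refine Finset.sum_le_sum fun i _ => ?_
      simp only [hv]
      split_ifs
      · simp
      · simp
    calc ∑ k ∈ O, ‖inner ℂ e (a k)‖ ^ 2 ≤ ∑ k, ‖inner ℂ e (a k)‖ ^ 2 :=
          Finset.sum_le_univ_sum_of_nonneg fun k => by positivity
      _ = n * ∑ i, ‖v i‖ ^ 2 := by simp only [h1, h2]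
      _ ≤ n * 1 := by gcongr
      _ = n := mul_one _
  calc (I.card * O.card : ℝ) = ∑ k ∈ O, (I.card : ℝ) := by
        rw [Finset.sum_const, nsmul_eq_mul, mul_comm]
    _ = ∑ k ∈ O, ∑ t, ‖inner ℂ (b t : EuclideanSpace ℂ (Fin n)) (a k)‖ ^ 2 :=
        Finset.sum_congr rfl hpars
    _ = ∑ t, ∑ k ∈ O, ‖inner ℂ (b t : EuclideanSpace ℂ (Fin n)) (a k)‖ ^ 2 := Finset.sum_comm
    _ ≤ ∑ _t : Fin (Module.finrank ℂ W), (n : ℝ) := by
        refine Finset.sum_le_sum fun t _ => hbes _ ?_
        exact b.orthonormal.1 t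
    _ = n * Module.finrank ℂ W := by
        rw [Finset.sum_const, nsmul_eq_mul, mul_comm]
        simp

end Vale.Agent.P344
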