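import Vale.Agent.P344.H120.GCore

/-!
# The sum of the areas of the additions, and the sum of the widths
-/

namespace Vale.Agent.P344

open Finset

variable {ι κ : Type}

theorem mul_logb_add_le (a b : ℕ) : ((a + b : ℕ) : ℝ) * Real.logb 2 (a + b : ℕ) ≤
    (a + b : ℕ) + a * Real.logb 2 a + b * Real.logb 2 b := by
  rcases Nat.eq_zero_or_pos (a + b) with h | h
  · have ha : a = 0 := by omega
    have hb : b = 0 := by omega
    subst ha hb
    simp
  have hab : (0 : ℝ) < a + b := by exact_mod_cast h
  have h1 := Real.convexOn_mul_log.2 (show (a : ℝ) ∈ Set.Ici 0 by simp)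
    (show (b : ℝ) ∈ Set.Ici 0 by simp) (show (0 : ℝ) ≤ 1 / 2 by norm_num)
    (show (0 : ℝ) ≤ 1 / 2 by norm_num) (by norm_num)
  simp only [smul_eq_mul] at h1
  have h2 : (1 / 2 * (a : ℝ) + 1 / 2 * b) = (a + b) / 2 := by ring
  rw [h2, Real.log_div hab.ne' (by norm_num)] at h1
  have hl : 0 < Real.log 2 := Real.log_pos (by norm_num)
  simp only [Real.logb]
  push_cast
  have h3 : ((a : ℝ) + b) * (Real.log (a + b) / Real.log 2) =
      ((a + b) * Real.log (a + b)) / Real.log 2 := by ring
  have h4 : (a : ℝ) + b + a * (Real.log a / Real.log 2) + b * (Real.log b / Real.log 2) =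
      ((a + b) * Real.log 2 + a * Real.log a + b * Real.log b) / Real.log 2 := by
    field_simp
  rw [h3, h4]
  refine div_le_div_of_nonneg_right ?_ hl.le
  nlinarith

theorem Circuit.Reaches.depth_le {C : Circuit ι κ} {a b : Option ι ⊕ C.G} (h : C.Reaches a b) :
    (Sum.elim (fun _ => 0) C.depth a : ℕ) ≤ Sum.elim (fun _ => 0) C.depth b := by
  induction h with
  | refl => exact le_rfl
  | @tail b c _ hbc ih =>
    obtain ⟨g, rfl, hg⟩ := hbc
    refine ih.trans ?_
    rcases b with b | g'
    · exact Nat.zero_le _
    · exact (C.depth_lt g g' hg).le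

theorem Circuit.Reads.depth_lt {C : Circuit ι κ} {a : Option ι ⊕ C.G} {g : C.G}
    (h : a ∈ (C.gate g).args) : (Sum.elim (fun _ => 0) C.depth a : ℕ) < C.depth g := by
  rcases a with a | g'
  · exact C.depth_pos g
  · exact C.depth_lt g g' h

theorem Circuit.reaches_inl {C : Circuit ι κ} {a : Option ι ⊕ C.G} {x : Option ι}
    (h : C.Reaches a (Sum.inl x)) : a = Sum.inl x := by
  rcases Relation.ReflTransGen.cases_tail h with h | ⟨c, _, g, hg, _⟩
  · exact h.symm
  · exact absurd hg (by simp)

theorem Circuit.reaches_inr {C : Circuit ι κ} {a : Option ι ⊕ C.G} {g : C.G}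
    (h : C.Reaches a (Sum.inr g)) : a = Sum.inr g ∨ ∃ p ∈ (C.gate g).args, C.Reaches a p := by
  rcases Relation.ReflTransGen.cases_tail h with h | ⟨c, hc, g', hg, hp⟩
  · exact Or.inl h.symm
  · obtain rfl := Sum.inr_injective hg
    exact Or.inr ⟨c, hp, hc⟩

open Classical in
/-- Lower bound for the number of pairs (input in `J`, addition on a path from it to `c`). -/
theorem Circuit.tree_bound [Fintype ι] [DecidableEq ι] (C : Circuit ι κ) : ∀ (t : ℕ)
    (c : Option ι ⊕ C.G), (Sum.elim (fun _ => 0) C.depth c : ℕ) ≤ t →
    ∀ J : Finset ι, (∀ i ∈ J, C.Reaches (Sum.inl (some i)) c) →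
      (J.card : ℝ) * Real.logb 2 J.card ≤
        ∑ g ∈ C.adds with C.Reaches (Sum.inr g) c,
          ((J.filter fun i => C.Reaches (Sum.inl (some i)) (Sum.inr g)).card : ℝ) := by
  intro t
  induction t with
  | zero =>
    intro c hc J hJ
    have hJ1 : J.card ≤ 1 := by
      rcases c with x | g
      · refine Finset.card_le_one.2 fun i hi j hj => ?_
        have h1 := Circuit.reaches_inl (hJ i hi)
        have h2 := Circuit.reaches_inl (hJ j hj)
        simpa using h1.trans h2.symm
      · have := C.depth_pos g
        simp at hc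
        omega
    have h0 : (J.card : ℝ) * Real.logb 2 J.card = 0 := by
      interval_cases J.card <;> simp
    rw [h0]
    exact Finset.sum_nonneg fun _ _ => Nat.cast_nonneg _
  | succ t ih =>
    intro c hc J hJ
    rcases c with x | g
    · exact ih _ (Nat.zero_le _) J hJ
    -- one argument
    have step : ∀ p ∈ (C.gate g).args, ∀ J' : Finset ι, (∀ i ∈ J', C.Reaches (Sum.inl (some i)) p) →
        (if (C.gate g).IsAdd then (J'.card : ℝ) else 0) + (J'.card : ℝ) * Real.logb 2 J'.card ≤
        ∑ g' ∈ C.adds with C.Reaches (Sum.inr g') (Sum.inr g),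
          ((J'.filter fun i => C.Reaches (Sum.inl (some i)) (Sum.inr g')).card : ℝ) := by
      intro p hp J' hJ'
      have h1 := ih p (by
        have := Circuit.Reads.depth_lt hp
        simp at hc
        omega) J' hJ'
      have hsub : (C.adds.filter fun g' => C.Reaches (Sum.inr g') p) ⊆
          (C.adds.filter fun g' => C.Reaches (Sum.inr g') (Sum.inr g)) \ {g} := by
        intro g' hg'
        rw [Finset.mem_filter] at hg'
        rw [Finset.mem_sdiff, Finset.mem_filter, Finset.mem_singleton]
        refine ⟨⟨hg'.1, hg'.2.tail ⟨g, rfl, hp⟩⟩, ?_⟩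
        rintro rfl
        have h2 := hg'.2.depth_le
        have h3 := Circuit.Reads.depth_lt hp
        simp at h2
        omega
      have h2 := Finset.sum_le_sum_of_subset_of_nonneg (f := fun g' =>
        ((J'.filter fun i => C.Reaches (Sum.inl (some i)) (Sum.inr g')).card : ℝ)) hsub
        (fun _ _ _ => Nat.cast_nonneg _)
      by_cases hadd : (C.gate g).IsAdd
      · rw [if_pos hadd]
        have hmem : g ∈ C.adds.filter fun g' => C.Reaches (Sum.inr g') (Sum.inr g) := by
          rw [Finset.mem_filter]
          exact ⟨by simp [Circuit.adds, hadd], Relation.ReflTransGen.refl⟩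
        rw [← Finset.sum_sdiff (Finset.singleton_subset_iff.2 hmem), Finset.sum_singleton]
        have h3 : J'.filter (fun i => C.Reaches (Sum.inl (some i)) (Sum.inr g)) = J' := by
          refine Finset.filter_true_of_mem fun i hi => (hJ' i hi).tail ⟨g, rfl, hp⟩
        rw [h3]
        linarith
      · rw [if_neg hadd, zero_add]
        refine h1.trans (h2.trans ?_)
        exact Finset.sum_le_sum_of_subset_of_nonneg Finset.sdiff_subset
          (fun _ _ _ => Nat.cast_nonneg _)
    -- two arguments
    have two : ∀ p q, (C.gate g).args = [p, q] → (C.gate g).IsAdd →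
        (J.card : ℝ) * Real.logb 2 J.card ≤
        ∑ g' ∈ C.adds with C.Reaches (Sum.inr g') (Sum.inr g),
          ((J.filter fun i => C.Reaches (Sum.inl (some i)) (Sum.inr g')).card : ℝ) := by
      intro p q hpq hadd
      set Jp := J.filter fun i => C.Reaches (Sum.inl (some i)) p with hJp
      set Jq := J.filter fun i => ¬ C.Reaches (Sum.inl (some i)) p with hJq
      have hcard : Jp.card + Jq.card = J.card := Finset.card_filter_add_card_filter_not _
      have h1 := step p (by simp [hpq]) Jp fun i hi => (Finset.mem_filter.1 hi).2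
      have h2 := step q (by simp [hpq]) Jq fun i hi => by
        rw [hJq, Finset.mem_filter] at hi
        rcases Circuit.reaches_inr (hJ i hi.1) with h | ⟨p', hp', h⟩
        · exact absurd h (by simp)
        · rw [hpq] at hp'
          simp only [List.mem_cons, List.not_mem_nil, or_false] at hp'
          rcases hp' with rfl | rfl
          · exact absurd h hi.2
          · exact h
      rw [if_pos hadd] at h1 h2
      have h3 := mul_logb_add_le Jp.card Jq.card
      rw [hcard] at h3
      have h4 : ∀ g', ((J.filter fun i => C.Reaches (Sum.inl (some i)) (Sum.inr g')).card : ℝ) =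
          ((Jp.filter fun i => C.Reaches (Sum.inl (some i)) (Sum.inr g')).card : ℝ) +
          ((Jq.filter fun i => C.Reaches (Sum.inl (some i)) (Sum.inr g')).card : ℝ) := by
        intro g'
        rw [← Nat.cast_add]
        congr 1
        rw [hJp, hJq, Finset.filter_filter, Finset.filter_filter]
        rw [← Finset.card_filter_add_card_filter_not
          (s := J.filter fun i => C.Reaches (Sum.inl (some i)) (Sum.inr g'))
          (fun i => C.Reaches (Sum.inl (some i)) p), Finset.filter_filter, Finset.filter_filter]
        congr 2 <;> (ext i; simp only [Finset.mem_filter]; tauto)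
      simp only [h4, Finset.sum_add_distrib]
      have h5 : (J.card : ℝ) = Jp.card + Jq.card := by rw [← hcard]; push_cast; ring
      linarith
    cases hg : C.gate g with
    | add p q => exact two p q (by rw [hg]; rfl) (by rw [hg]; trivial)
    | sub p q => exact two p q (by rw [hg]; rfl) (by rw [hg]; trivial)
    | smul z p =>
      have h1 := step p (by rw [hg]; simp [Gate.args]) J fun i hi => by
        rcases Circuit.reaches_inr (hJ i hi) with h | ⟨p', hp', h⟩
        · exact absurd h (by simp)
        · rw [hg] at hp'
          simp only [Gate.args, List.mem_cons, List.not_mem_nil, or_false] at hp'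
          rwa [← hp']
      rw [hg, if_neg (by simp [Gate.IsAdd]), zero_add] at h1
      exact h1

end Vale.Agent.P344
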