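import Vale.Agent.P344.H120.NField
import Vale.Agent.P344.H120.GFinal

/-!
# The program `F_n D F_n`
-/

set_option linter.unusedSectionVars false

namespace Vale.Agent.P344.NC

open Finset Vale.Agent.P344

/-- The arguments of a gate. -/
def argOf {α : Type} : Gate α → Bool → Option α
  | .add p _, false => some p
  | .add _ q, true => some q
  | .sub p _, false => some p
  | .sub _ q, true => some q
  | .smul _ p, false => some p
  | .smul _ _, true => none

/-- The coefficients of a gate. -/
def coefOf {α : Type} : Gate α → Bool → ℂ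
  | .add _ _, _ => 1
  | .sub _ _, false => 1
  | .sub _ _, true => -1
  | .smul z _, _ => z

theorem argOf_mem {α : Type} {g : Gate α} {b : Bool} {p : α} (h : argOf g b = some p) :
    p ∈ g.args := by
  cases g <;> cases b <;> simp [argOf, Gate.args] at h ⊢ <;> simp [h]

theorem eval_eq {α ι : Type} (x : α → ι → ℂ) (g : Gate α) (i : ι) :
    g.eval x i = ∑ b, (argOf g b).elim 0 fun p => coefOf g b * x p i := by
  rw [Fintype.sum_bool]
  cases g <;> simp [argOf, coefOf, Gate.eval] <;> ring

variable {n : ℕ}

/-- The cells of a circuit. -/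
abbrev Cell (C : Circuit (Fin n) (Fin n)) : Type := Option (Fin n) ⊕ C.G

/-- A numbering of the cells. -/
noncomputable def cellRk (C : Circuit (Fin n) (Fin n)) (c : Cell C) : ℕ :=
  Sum.elim (fun _ => 0) C.depth c * Fintype.card (Cell C) + (Fintype.equivFin (Cell C) c : ℕ)

/-- A bound for the numbers of the cells. -/
noncomputable def rkBound (C : Circuit (Fin n) (Fin n)) : ℕ :=
  (∑ g, C.depth g + 1) * Fintype.card (Cell C)

theorem cellRk_inj (C : Circuit (Fin n) (Fin n)) : Function.Injective (cellRk C) := by
  intro c c' h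
  have h1 := (Fintype.equivFin (Cell C) c).2
  have h2 := (Fintype.equivFin (Cell C) c').2
  have h3 : (cellRk C c) % Fintype.card (Cell C) = (Fintype.equivFin (Cell C) c : ℕ) := by
    rw [cellRk, Nat.mul_comm, Nat.mul_add_mod, Nat.mod_eq_of_lt h1]
  have h4 : (cellRk C c') % Fintype.card (Cell C) = (Fintype.equivFin (Cell C) c' : ℕ) := by
    rw [cellRk, Nat.mul_comm, Nat.mul_add_mod, Nat.mod_eq_of_lt h2]
  rw [h, h4] at h3
  exact (Fintype.equivFin (Cell C)).injective (Fin.ext h3.symm)

theorem cellRk_lt_bound (C : Circuit (Fin n) (Fin n)) (c : Cell C) : cellRk C c < rkBound C := by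
  have h1 := (Fintype.equivFin (Cell C) c).2
  have h2 : Sum.elim (fun _ => 0) C.depth c ≤ ∑ g, C.depth g := by
    rcases c with c | g
    · exact Nat.zero_le _
    · exact Finset.single_le_sum (f := C.depth) (fun _ _ => Nat.zero_le _) (Finset.mem_univ g)
  rw [cellRk, rkBound, Nat.add_mul, Nat.one_mul]
  have h3 := Nat.mul_le_mul_right (Fintype.card (Cell C)) h2
  omega

theorem cellRk_lt (C : Circuit (Fin n) (Fin n)) {g : C.G} {p : Cell C}
    (hp : p ∈ (C.gate g).args) : cellRk C p < cellRk C (Sum.inr g) := by
  have h1 := (Fintype.equivFin (Cell C) p).2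
  have h2 := Circuit.Reads.depth_lt hp
  simp only [cellRk, Sum.elim_inr]
  have h3 := Nat.mul_le_mul_right (Fintype.card (Cell C)) (Nat.succ_le_of_lt h2)
  rw [Nat.succ_mul] at h3
  omega

/-- Two copies of a circuit, the second one reading the outputs of the first one. -/
noncomputable def two (C : Circuit (Fin n) (Fin n)) : Prog (Cell C × Bool) where
  rk x := (if x.2 then rkBound C else 0) + cellRk C x.1
  rk_inj := by
    rintro ⟨c, t⟩ ⟨c', t'⟩ h
    have h1 := cellRk_lt_bound C c
    have h2 := cellRk_lt_bound C c'
    cases t <;> cases t' <;> simp only [Bool.false_eq_true, if_false, if_true] at h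
    · have : c = c' := cellRk_inj C (by omega)
      rw [this]
    · omega
    · omega
    · have : c = c' := cellRk_inj C (by omega)
      rw [this]
  arg x b := match x with
    | (Sum.inl none, _) => none
    | (Sum.inl (some _), false) => none
    | (Sum.inl (some j), true) => if b then none else some (C.out j, false)
    | (Sum.inr g, t) => (argOf (C.gate g) b).map fun p => (p, t)
  arg_lt := by
    rintro ⟨((_ | j) | g), t⟩ b y hy
    · simp at hy
    · cases t with
      | false => simp at hy
      | true =>
        cases b with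
        | true => simp at hy
        | false =>
          simp only [Bool.false_eq_true, if_false, Option.some.injEq] at hy
          subst hy
          have := cellRk_lt_bound C (C.out j)
          simp
          omega
    · simp only [Option.map_eq_some_iff] at hy
      obtain ⟨p, hp, rfl⟩ := hy
      have := cellRk_lt C (argOf_mem hp)
      simp
      omega

/-- The coefficients; the outputs of the first copy are multiplied by `d`. -/
noncomputable def twoCoef (C : Circuit (Fin n) (Fin n)) (d : Fin n → ℂ) :
    Cell C × Bool → Bool → ℂ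
  | (Sum.inl none, _), _ => 0
  | (Sum.inl (some j), _), _ => d j
  | (Sum.inr g, _), b => coefOf (C.gate g) b

/-- The values. -/
noncomputable def twoVal (C : Circuit (Fin n) (Fin n)) (f : C.G → Fin n → ℂ) (d : Fin n → ℂ) :
    Cell C × Bool → Fin n → ℂ
  | (c, false), i => C.cell f c i
  | (c, true), i => ∑ j, C.cell f c j * (d j * C.cell f (C.out j) i)

theorem two_isVal (C : Circuit (Fin n) (Fin n)) {f : C.G → Fin n → ℂ} (hf : C.IsForms f)
    (d : Fin n → ℂ) :
    (two C).IsVal (fun i => ((Sum.inl (some i), false) : Cell C × Bool)) (twoCoef C d)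
      (twoVal C f d) := by
  rintro ⟨((_ | j) | g), t⟩ i
  · rw [Fintype.sum_bool]
    cases t <;> simp [two, twoVal, Circuit.cell]
  · rw [Fintype.sum_bool]
    cases t with
    | false =>
      simp only [two, twoVal, Circuit.cell, Option.elim, add_zero, Prod.mk.injEq, and_true,
        Sum.inl.injEq, Option.some.injEq, Pi.single_apply]
    | true =>
      simp only [two, twoVal, twoCoef, Circuit.cell, Option.elim, Prod.mk.injEq,
        Pi.single_apply, ite_mul, one_mul, zero_mul, Finset.sum_ite_eq', Finset.mem_univ, if_true]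
      simp
  · have hg : ∀ i, C.cell f (Sum.inr g) i = ∑ b, (argOf (C.gate g) b).elim 0 fun p =>
        coefOf (C.gate g) b * C.cell f p i := by
      intro i
      rw [← eval_eq, ← hf g]
      rfl
    cases t with
    | false =>
      rw [show twoVal C f d (Sum.inr g, false) i = C.cell f (Sum.inr g) i from rfl, hg]
      simp only [Prod.mk.injEq, reduceCtorEq, false_and, if_false, zero_add]
      refine Finset.sum_congr rfl fun b _ => ?_
      simp only [two]
      cases argOf (C.gate g) b <;> simp [twoCoef, twoVal]
    | true =>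
      have : twoVal C f d (Sum.inr g, true) i = ∑ j, C.cell f (Sum.inr g) j *
        (d j * C.cell f (C.out j) i) := rfl
      rw [this]
      simp only [hg, Prod.mk.injEq, reduceCtorEq, false_and, if_false, zero_add, Finset.sum_mul]
      rw [Finset.sum_comm]
      refine Finset.sum_congr rfl fun b _ => ?_
      simp only [two]
      cases argOf (C.gate g) b with
      | none => simp
      | some p =>
        simp only [Option.elim, Option.map, twoCoef, twoVal, Finset.mul_sum]
        exact Finset.sum_congr rfl fun j _ => by ring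

/-- The wires of the composite program. -/
theorem card_wires (C : Circuit (Fin n) (Fin n)) :
    Fintype.card (two C).W ≤ 4 * Fintype.card C.G + n := by
  classical
  let F : (two C).W → Option (Fin n) ⊕ (C.G × Bool × Bool) := fun w =>
    match w.1.1.1 with
    | Sum.inl o => Sum.inl o
    | Sum.inr g => Sum.inr (g, w.1.1.2, w.1.2)
  have hF : Function.Injective F := by
    rintro ⟨⟨⟨((_ | j) | g), t⟩, b⟩, hw⟩ ⟨⟨⟨((_ | j') | g'), t'⟩, b'⟩, hw'⟩ h
    · simp [two] at hw
    · simp [two] at hw
    · simp [two] at hw
    · simp [two] at hw'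
    · simp only [F, Sum.inl.injEq, Option.some.injEq] at h
      subst h
      cases t <;> cases t' <;> cases b <;> cases b' <;> first | rfl | simp [two] at hw hw'
    · simp [F] at h
    · simp [F] at h
    · simp [F] at h
    · simp only [F, Sum.inr.injEq, Prod.mk.injEq] at h
      obtain ⟨rfl, rfl, rfl⟩ := h
      rfl
  have hne : ∀ w, F w ∈ (Finset.univ : Finset (Option (Fin n) ⊕ (C.G × Bool × Bool))).erase
      (Sum.inl none) := by
    rintro ⟨⟨⟨((_ | j) | g), t⟩, b⟩, hw⟩
    · simp [two] at hw
    · simp [F]
    · simp [F]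
  have h1 := Finset.card_le_card_of_injOn (s := (Finset.univ : Finset (two C).W)) F
    (fun w _ => Finset.mem_coe.2 (hne w)) (hF.injOn)
  rw [Finset.card_univ, Finset.card_erase_of_mem (Finset.mem_univ _), Finset.card_univ] at h1
  simp only [Fintype.card_sum, Fintype.card_option, Fintype.card_fin, Fintype.card_prod,
    Fintype.card_bool] at h1
  omega

/-- The computed values are multiples of a permutation of the inputs. -/
theorem two_out (C : Circuit (Fin n) (Fin n)) {f : C.G → Fin n → ℂ}
    (hout : ∀ j k, C.cell f (C.out j) k = dftMat n j k) [NeZero n] (l i : Fin n) :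
    twoVal C f (fun j => zeta n ^ ((l : ℕ) * (j : ℕ))) (C.out (-(i + l)), true) =
      (n : ℂ) • (Pi.single i 1 : Fin n → ℂ) := by
  funext i'
  have h1 : twoVal C f (fun j => zeta n ^ ((l : ℕ) * (j : ℕ))) (C.out (-(i + l)), true) i' =
      ∑ j : Fin n, zeta n ^ ((j : ℕ) * (((-(i + l) : Fin n) : ℕ) + l + i')) := by
    change ∑ j, C.cell f (C.out (-(i + l))) j * (zeta n ^ ((l : ℕ) * (j : ℕ)) *
      C.cell f (C.out j) i') = _
    refine Finset.sum_congr rfl fun j _ => ?_
    rw [hout, hout]
    change zeta n ^ (((-(i + l) : Fin n) : ℕ) * (j : ℕ)) * (zeta n ^ ((l : ℕ) * (j : ℕ)) *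
      zeta n ^ ((j : ℕ) * (i' : ℕ))) = _
    rw [← pow_add, ← pow_add]
    congr 1
    ring
  rw [h1, Fin.sum_univ_eq_sum_range (fun j => zeta n ^ (j * (((-(i + l) : Fin n) : ℕ) + l + i'))) n,
    char_sum (NeZero.ne n)]
  have h2 : n ∣ ((-(i + l) : Fin n) : ℕ) + l + i' ↔ i' = i := by
    have h3 : ((-(i + l) + l + i' : Fin n) : ℕ) = (((-(i + l) : Fin n) : ℕ) + l + i') % n := by
      rw [Fin.val_add, Fin.val_add]
      simp
    rw [Nat.dvd_iff_mod_eq_zero, ← h3]
    constructor
    · intro h
      have h4 : (-(i + l) + l + i' : Fin n) = 0 := Fin.ext (by simpa using h)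
      have h5 : i' = i := by
        have : (-(i + l) + l + i' : Fin n) = i' - i := by abel
        rw [this] at h4
        exact sub_eq_zero.1 h4
      exact h5
    · rintro rfl
      have : (-(i' + l) + l + i' : Fin n) = 0 := by abel
      rw [this]
      simp
  simp only [h2, Pi.smul_apply, Pi.single_apply, smul_eq_mul, mul_ite, mul_one, mul_zero]

end Vale.Agent.P344.NC
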