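import Mathlib

/-!
# Network coding in undirected networks

Undirected networks with unit capacities and source-sink pairs (sessions); scalar linear network
codes of rate one over a field; fractional multicommodity routings of rate one.
-/

namespace Vale.Agent.P344.NC

open Finset

/-- An undirected network, every edge of capacity `1`, with a source `src i` and a sink `snk i` for
every session `i : ι`.  The order of the two ends `fst e`, `snd e` of an edge has no meaning. -/
structure Network (ι : Type) : Type 1 where
  V : Type
  E : Type
  finV : Fintype V
  decV : DecidableEq V
  finE : Fintype E
  fst : E → V
  snd : E → V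
  src : ι → V
  snk : ι → V

attribute [instance] Network.finV Network.decV Network.finE

variable {ι : Type}

/-- Every vertex is an end of at most `d` edges. -/
def Network.MaxDegree (N : Network ι) (d : ℕ) : Prop :=
  ∀ v, (univ.filter fun e => N.fst e = v ∨ N.snd e = v).card ≤ d

/-- A scalar linear network code of rate one over the field `K`: session `i` has a message
`m i : K`; every edge `e` carries, in one of its two directions, one symbol
`∑ i, sym e i * m i : K`.  The symbol on an edge is a linear combination of the messages whose
source is the tail of the edge and of the symbols that arrived there earlier on other edges; and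
every message is a linear combination of the messages whose source is its sink and of the symbols
that arrive there. -/
structure LinearCode [Fintype ι] [DecidableEq ι] (N : Network ι) (K : Type) [Field K] where
  tail : N.E → N.V
  head : N.E → N.V
  ends : ∀ e, (tail e = N.fst e ∧ head e = N.snd e) ∨ (tail e = N.snd e ∧ head e = N.fst e)
  time : N.E → ℕ
  sym : N.E → ι → K
  causal : ∀ e, sym e ∈ Submodule.span K
    ({x | ∃ i, N.src i = tail e ∧ x = Pi.single i 1} ∪
      {x | ∃ e', head e' = tail e ∧ time e' < time e ∧ x = sym e'})
  decode : ∀ i, (Pi.single i 1 : ι → K) ∈ Submodule.span K
    ({x | ∃ i', N.src i' = N.snk i ∧ x = Pi.single i' 1} ∪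
      {x | ∃ e, head e = N.snk i ∧ x = sym e})

/-- All sessions can be routed fractionally at rate one with congestion at most `γ`: `φ i e` is the
flow of session `i` on the edge `e`, counted from `fst e` to `snd e`; it is conserved except that
one unit leaves `src i` and arrives at `snk i`, and the total flow on every edge, in both
directions together, is at most `γ`. -/
def Network.Routable [Fintype ι] (N : Network ι) (γ : ℝ) : Prop :=
  ∃ φ : ι → N.E → ℝ,
    (∀ i v, (∑ e, if N.fst e = v then φ i e else 0) - (∑ e, if N.snd e = v then φ i e else 0) =
      (if N.src i = v then 1 else 0) - (if N.snk i = v then 1 else 0)) ∧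
    ∀ e, ∑ i, |φ i e| ≤ γ

/-- The undirected network coding conjecture (of Li and Li) up to a factor `γ`, for scalar linear
codes over finite fields and networks of maximum degree three: if the sessions have a code of rate
one, they can be routed at rate one with congestion at most `γ` (so at rate `1 / γ` within the
capacities).  The conjecture says that this holds with `γ = 1`. -/
def NetworkCodingConjecture (γ : ℝ) : Prop :=
  ∀ (n : ℕ) (N : Network (Fin n)) (K : Type) [Field K] [Finite K], N.MaxDegree 3 →
    Nonempty (LinearCode N K) → N.Routable γ

end Vale.Agent.P344.NC
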