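import Vale.Agent.P344.H120.NProg
import Vale.Agent.P186.H570.Malcev

/-!
# From complex coefficients to a finite field
-/

set_option linter.unusedSectionVars false

namespace Vale.Agent.P344.NC

open Finset

variable {X ι : Type} [Fintype X] [DecidableEq X] [Fintype ι] [DecidableEq ι]

theorem exists_finite_field (S : Finset ℂ) {n : ℕ} (hn : n ≠ 0) (hS : ((n : ℂ)⁻¹) ∈ S) :
    ∃ (K : Type) (_ : Field K) (_ : Finite K) (π : Algebra.adjoin ℤ (S : Set ℂ) →+* K),
      (n : K) ≠ 0 := by
  classical
  set A := Algebra.adjoin ℤ (S : Set ℂ) with hA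
  have hFG : A.FG := Subalgebra.fg_adjoin_finset S
  have hft : Algebra.FiniteType ℤ A := Subalgebra.fg_iff_finiteType A |>.1 hFG
  obtain ⟨m, hm, _⟩ := Vale.Agent.P186.H570.exists_maximal_notMem A hFG 1 one_ne_zero
  letI : Field (A ⧸ m) := Ideal.Quotient.field m
  have hft' : Algebra.FiniteType ℤ (A ⧸ m) :=
    Algebra.FiniteType.of_surjective (Ideal.Quotient.mkₐ ℤ m) (Ideal.Quotient.mkₐ_surjective ℤ m)
  have hfin : Finite (A ⧸ m) := Vale.Agent.P186.H570.finite_of_finiteType_int (A ⧸ m)
  refine ⟨A ⧸ m, inferInstance, hfin, Ideal.Quotient.mk m, ?_⟩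
  intro h0
  let u : A := ⟨(n : ℂ)⁻¹, Algebra.subset_adjoin hS⟩
  have h1 : (n : A) * u = 1 := by
    apply Subtype.ext
    push_cast
    exact mul_inv_cancel₀ (by exact_mod_cast hn)
  have h2 := congrArg (Ideal.Quotient.mk m) h1
  rw [map_mul, map_natCast, map_one] at h2
  rw [h0, zero_mul] at h2
  exact zero_ne_one h2

/-- A program over `ℂ` that computes multiples `n x_i` gives a program over a finite field. -/
theorem Prog.IsVal.to_finite {P : Prog X} {inp : ι → X} {coef : X → Bool → ℂ}
    {val : X → ι → ℂ} (hval : P.IsVal inp coef val) (t : ι → X) {n : ℕ} (hn : n ≠ 0)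
    (ht : ∀ i, val (t i) = (n : ℂ) • (Pi.single i 1 : ι → ℂ)) :
    ∃ (K : Type) (_ : Field K) (_ : Finite K) (coef' : X → Bool → K) (val' : X → ι → K),
      P.IsVal inp coef' val' ∧ (n : K) ≠ 0 ∧
      ∀ i, val' (t i) = (n : K) • (Pi.single i 1 : ι → K) := by
  classical
  set S : Finset ℂ := insert (n : ℂ)⁻¹ ((univ : Finset (X × Bool)).image fun p => coef p.1 p.2)
    with hS
  obtain ⟨K, _, _, π, hK⟩ := exists_finite_field S hn (Finset.mem_insert_self _ _)
  set A := Algebra.adjoin ℤ (S : Set ℂ) with hA
  have hcoef : ∀ x b, coef x b ∈ A := fun x b =>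
    Algebra.subset_adjoin (by
      simp only [hS, Finset.coe_insert, Finset.coe_image]
      exact Or.inr ⟨(x, b), by simp, rfl⟩)
  have hmem : ∀ (N : ℕ) (x : X), P.rk x < N → ∀ i, val x i ∈ A := by
    intro N
    induction N with
    | zero => intro x hx; omega
    | succ N ih =>
      intro x hx i
      rw [hval]
      refine A.add_mem ?_ (A.sum_mem fun b _ => ?_)
      · split_ifs
        · exact A.one_mem
        · exact A.zero_mem
      · cases hy : P.arg x b with
        | none => exact A.zero_mem
        | some y =>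
          have := P.arg_lt x b y hy
          exact A.mul_mem (hcoef x b) (ih y (by omega) i)
  have hmem' : ∀ x i, val x i ∈ A := fun x i => hmem _ x (Nat.lt_succ_self _) i
  refine ⟨K, inferInstance, inferInstance, fun x b => π ⟨coef x b, hcoef x b⟩,
    fun x i => π ⟨val x i, hmem' x i⟩, ?_, hK, ?_⟩
  · intro x i
    have h1 : (⟨val x i, hmem' x i⟩ : A) = (if inp i = x then 1 else 0) +
        ∑ b, (P.arg x b).elim 0 fun y => (⟨coef x b, hcoef x b⟩ : A) * ⟨val y i, hmem' y i⟩ := by
      apply Subtype.ext
      push_cast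
      rw [hval]
      congr 1
      · split_ifs <;> simp
      · refine Finset.sum_congr rfl fun b _ => ?_
        cases P.arg x b <;> simp
    beta_reduce
    rw [h1, map_add, map_sum]
    congr 1
    · split_ifs <;> simp
    · refine Finset.sum_congr rfl fun b _ => ?_
      cases P.arg x b with
      | none => simp
      | some y => exact map_mul π _ _
  · intro i
    funext j
    have h1 : (⟨val (t i) j, hmem' (t i) j⟩ : A) = (n : A) * (Pi.single i 1 : ι → A) j := by
      apply Subtype.ext
      have := congrFun (ht i) j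
      simp only [this, Pi.smul_apply, smul_eq_mul, Pi.single_apply]
      push_cast
      split_ifs <;> simp
    beta_reduce
    rw [h1, map_mul, map_natCast, Pi.smul_apply, smul_eq_mul, Pi.single_apply, Pi.single_apply]
    split_ifs <;> simp

end Vale.Agent.P344.NC
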