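import Vale.Agent.P344.H120.NDefs

/-!
# Routings and distances
-/

namespace Vale.Agent.P344.NC

open Finset

section ball

variable {V E : Type} [DecidableEq V] [Fintype E] (a b : E → V)

/-- The vertices at distance at most `r` from `v`. -/
def ball (v : V) : ℕ → Finset V
  | 0 => {v}
  | r + 1 => ball v r ∪ (ball v r).biUnion fun x =>
      (univ.filter fun e => a e = x ∨ b e = x).image fun e => if a e = x then b e else a e

theorem ball_mono (v : V) (r : ℕ) : ball a b v r ⊆ ball a b v (r + 1) :=
  Finset.subset_union_left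

theorem self_mem_ball (v : V) (r : ℕ) : v ∈ ball a b v r := by
  induction r with
  | zero => simp [ball]
  | succ r ih => exact ball_mono a b v r ih

theorem snd_mem_ball {v : V} {r : ℕ} {e : E} (h : a e ∈ ball a b v r) :
    b e ∈ ball a b v (r + 1) := by
  refine Finset.mem_union_right _ (Finset.mem_biUnion.2 ⟨a e, h, ?_⟩)
  exact Finset.mem_image.2 ⟨e, by simp, by simp⟩

theorem fst_mem_ball {v : V} {r : ℕ} {e : E} (h : b e ∈ ball a b v r) :
    a e ∈ ball a b v (r + 1) := by
  by_cases hab : a e = b e
  · rw [hab]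
    exact ball_mono a b v r h
  refine Finset.mem_union_right _ (Finset.mem_biUnion.2 ⟨b e, h, ?_⟩)
  exact Finset.mem_image.2 ⟨e, by simp, by simp [hab]⟩

theorem card_ball_le {d : ℕ} (hd : ∀ x, (univ.filter fun e => a e = x ∨ b e = x).card ≤ d)
    (v : V) (r : ℕ) : (ball a b v r).card ≤ (d + 1) ^ r := by
  induction r with
  | zero => simp [ball]
  | succ r ih =>
    have h1 : (ball a b v (r + 1)).card ≤ (ball a b v r).card + (ball a b v r).card * d := by
      refine (Finset.card_union_le _ _).trans ?_
      gcongr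
      exact Finset.card_biUnion_le_card_mul _ _ _ fun x _ => Finset.card_image_le.trans (hd x)
    calc (ball a b v (r + 1)).card ≤ (ball a b v r).card * (d + 1) := by linarith
      _ ≤ (d + 1) ^ r * (d + 1) := by gcongr
      _ = (d + 1) ^ (r + 1) := by rw [pow_succ]

/-- The distance from `v`, cut off at `R`. -/
def pot (v : V) (R : ℕ) (x : V) : ℕ := ((range R).filter fun r => x ∉ ball a b v r).card

theorem pot_self (v : V) (R : ℕ) : pot a b v R v = 0 := by
  simp [pot, self_mem_ball]

theorem pot_le_of {v : V} {R : ℕ} {x y : V}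
    (h : ∀ r, x ∈ ball a b v r → y ∈ ball a b v (r + 1)) :
    pot a b v R y ≤ pot a b v R x + 1 := by
  have hsub : ((range R).filter fun r => y ∉ ball a b v r) ⊆
      insert 0 (((range R).filter fun r => x ∉ ball a b v r).image Nat.succ) := by
    intro r hr
    rw [Finset.mem_filter, Finset.mem_range] at hr
    rcases r with _ | r
    · exact Finset.mem_insert_self _ _
    · refine Finset.mem_insert_of_mem (Finset.mem_image.2 ⟨r, ?_, rfl⟩)
      rw [Finset.mem_filter, Finset.mem_range]
      exact ⟨by omega, fun hx => hr.2 (h r hx)⟩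
  calc pot a b v R y ≤ _ := Finset.card_le_card hsub
    _ ≤ (((range R).filter fun r => x ∉ ball a b v r).image Nat.succ).card + 1 :=
        Finset.card_insert_le _ _
    _ ≤ pot a b v R x + 1 := by
        gcongr
        exact Finset.card_image_le

theorem abs_pot_sub_le (v : V) (R : ℕ) (e : E) :
    |(pot a b v R (b e) : ℝ) - pot a b v R (a e)| ≤ 1 := by
  have h1 : pot a b v R (b e) ≤ pot a b v R (a e) + 1 :=
    pot_le_of a b fun r h => snd_mem_ball a b h
  have h2 : pot a b v R (a e) ≤ pot a b v R (b e) + 1 :=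
    pot_le_of a b fun r h => fst_mem_ball a b h
  have h1' : (pot a b v R (b e) : ℝ) ≤ pot a b v R (a e) + 1 := by exact_mod_cast h1
  have h2' : (pot a b v R (a e) : ℝ) ≤ pot a b v R (b e) + 1 := by exact_mod_cast h2
  rw [abs_le]
  constructor <;> linarith

/-- At most `(d + 1) ^ (R - 1)` vertices have potential less than `R`. -/
theorem pot_eq {v : V} {R : ℕ} {x : V} (h : x ∉ ball a b v (R - 1)) : pot a b v R x = R := by
  have hm : ∀ r s, r ≤ s → ball a b v r ⊆ ball a b v s := by
    intro r s hrs
    induction hrs with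
    | refl => exact Finset.Subset.refl _
    | step _ ih => exact ih.trans (ball_mono a b v _)
  rw [pot, Finset.filter_true_of_mem, Finset.card_range]
  intro r hr hx
  rw [Finset.mem_range] at hr
  exact h (hm r (R - 1) (by omega) hx)

end ball

/-- The total distance of the sessions is a lower bound for the congestion times the number of
edges. -/
theorem Network.Routable.sum_pot_le {ι : Type} [Fintype ι] {N : Network ι} {γ : ℝ}
    (h : N.Routable γ) (R : ℕ) :
    ∑ i, (pot N.fst N.snd (N.src i) R (N.snk i) : ℝ) ≤ γ * Fintype.card N.E := by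
  obtain ⟨φ, hφ, hγ⟩ := h
  have h1 : ∀ i, (pot N.fst N.snd (N.src i) R (N.snk i) : ℝ) ≤ ∑ e, |φ i e| := by
    intro i
    set u : N.V → ℝ := fun x => pot N.fst N.snd (N.src i) R x with hu
    have e1 : ∑ v, u v * ((∑ e, if N.fst e = v then φ i e else 0) -
        (∑ e, if N.snd e = v then φ i e else 0)) = ∑ e, φ i e * (u (N.fst e) - u (N.snd e)) := by
      simp only [mul_sub, Finset.sum_sub_distrib, Finset.mul_sum]
      congr 1
      · rw [Finset.sum_comm]
        refine Finset.sum_congr rfl fun e _ => ?_
        simp [mul_comm]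
      · rw [Finset.sum_comm]
        refine Finset.sum_congr rfl fun e _ => ?_
        simp [mul_comm]
    have e2 : ∑ v, u v * ((∑ e, if N.fst e = v then φ i e else 0) -
        (∑ e, if N.snd e = v then φ i e else 0)) = u (N.src i) - u (N.snk i) := by
      simp only [hφ, mul_sub, Finset.sum_sub_distrib]
      simp
    have e3 : u (N.src i) = 0 := by simp [hu, pot_self]
    have e4 : u (N.snk i) = ∑ e, φ i e * (u (N.snd e) - u (N.fst e)) := by
      have : u (N.snk i) = -(∑ e, φ i e * (u (N.fst e) - u (N.snd e))) := by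
        rw [← e1, e2, e3]
        ring
      rw [this, ← Finset.sum_neg_distrib]
      exact Finset.sum_congr rfl fun e _ => by ring
    change u (N.snk i) ≤ _
    rw [e4]
    refine Finset.sum_le_sum fun e _ => ?_
    calc φ i e * (u (N.snd e) - u (N.fst e)) ≤ |φ i e * (u (N.snd e) - u (N.fst e))| :=
          le_abs_self _
      _ = |φ i e| * |u (N.snd e) - u (N.fst e)| := abs_mul _ _
      _ ≤ |φ i e| * 1 := by
          gcongr
          exact abs_pot_sub_le _ _ _ _ _
      _ = |φ i e| := mul_one _
  calc ∑ i, (pot N.fst N.snd (N.src i) R (N.snk i) : ℝ) ≤ ∑ i, ∑ e, |φ i e| :=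
        Finset.sum_le_sum fun i _ => h1 i
    _ = ∑ e, ∑ i, |φ i e| := Finset.sum_comm
    _ ≤ ∑ _e : N.E, γ := Finset.sum_le_sum fun e _ => hγ e
    _ = γ * Fintype.card N.E := by
        rw [Finset.sum_const, nsmul_eq_mul, mul_comm, Finset.card_univ]

end Vale.Agent.P344.NC
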