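import Vale.Agent.P344.H120.NComp

/-!
# The network of a circuit for `F_n`
-/

set_option linter.unusedSectionVars false

namespace Vale.Agent.P344.NC

open Finset Vale.Agent.P344 Filter

variable {n : ℕ}

/-- The inputs of the composite program. -/
def inp (C : Circuit (Fin n) (Fin n)) (i : Fin n) : Cell C × Bool := (Sum.inl (some i), false)

/-- The cell that computes a multiple of input `i` when the diagonal matrix is that of `l`. -/
def tgt [NeZero n] (C : Circuit (Fin n) (Fin n)) (l i : Fin n) : Cell C × Bool :=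
  (C.out (-(i + l)), true)

/-- The potential of a vertex with respect to input `i`. -/
noncomputable def U (C : Circuit (Fin n) (Fin n)) (R : ℕ) (i : Fin n) (x : Cell C × Bool) : ℕ :=
  pot ((two C).net (inp C) (inp C)).fst ((two C).net (inp C) (inp C)).snd
    (((two C).net (inp C) (inp C)).src i) R (Sum.inl x)

theorem U_sum [NeZero n] (C : Circuit (Fin n) (Fin n)) (R : ℕ)
    (hinj : Function.Injective C.out) (hR : 4 ^ (R - 1) ≤ n / 2) (i : Fin n) :
    R * n ≤ 2 * ∑ j, U C R i (C.out j, true) := by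
  classical
  set N := (two C).net (inp C) (inp C) with hN
  set B := ball N.fst N.snd (N.src i) (R - 1) with hB
  have hBcard : B.card ≤ n / 2 :=
    (card_ball_le N.fst N.snd ((two C).net_degree (inp C) (inp C)) _ _).trans hR
  set S := (Finset.univ : Finset (Fin n)).filter fun j => (Sum.inl (C.out j, true) : N.V) ∈ B
    with hS
  have hScard : S.card ≤ n / 2 := by
    refine le_trans (Finset.card_le_card_of_injOn
      (fun j => (Sum.inl (C.out j, true) : N.V)) ?_ ?_) hBcard
    · intro j hj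
      exact (Finset.mem_filter.1 (Finset.mem_coe.1 hj)).2
    · intro j _ j' _ h
      have h1 : ((C.out j, true) : Cell C × Bool) = (C.out j', true) := Sum.inl_injective h
      exact hinj (Prod.ext_iff.1 h1).1
  have h1 : ∀ j ∈ Finset.univ \ S, U C R i (C.out j, true) = R := by
    intro j hj
    rw [Finset.mem_sdiff, hS, Finset.mem_filter] at hj
    exact pot_eq _ _ fun h => hj.2 ⟨Finset.mem_univ _, h⟩
  have h2 : (Finset.univ \ S).card = n - S.card := by
    rw [Finset.card_sdiff_of_subset (Finset.subset_univ _), Finset.card_univ, Fintype.card_fin]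
  have h3 : R * (n - S.card) ≤ ∑ j, U C R i (C.out j, true) := by
    calc R * (n - S.card) = ∑ j ∈ Finset.univ \ S, U C R i (C.out j, true) := by
          rw [Finset.sum_congr rfl h1, Finset.sum_const, smul_eq_mul, h2, mul_comm]
      _ ≤ _ := Finset.sum_le_sum_of_subset (Finset.subset_univ _)
  have h4 : R * n ≤ R * (2 * (n - S.card)) := Nat.mul_le_mul_left _ (by omega)
  calc R * n ≤ R * (2 * (n - S.card)) := h4
    _ = 2 * (R * (n - S.card)) := by ring
    _ ≤ _ := by omega

theorem exists_shift [NeZero n] (C : Circuit (Fin n) (Fin n)) (R : ℕ)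
    (hinj : Function.Injective C.out) (hR : 4 ^ (R - 1) ≤ n / 2) :
    ∃ l : Fin n, R * n ≤ 2 * ∑ i, U C R i (tgt C l i) := by
  classical
  have h1 : ∑ l : Fin n, ∑ i, U C R i (tgt C l i) = ∑ i, ∑ j, U C R i (C.out j, true) := by
    rw [Finset.sum_comm]
    refine Finset.sum_congr rfl fun i _ => ?_
    exact Equiv.sum_comp ((Equiv.addLeft i).trans (Equiv.neg (Fin n)))
      (fun j => U C R i (C.out j, true))
  have h2 : ∑ _l : Fin n, R * n ≤ ∑ l : Fin n, 2 * ∑ i, U C R i (tgt C l i) := by
    have e : ∑ l : Fin n, 2 * ∑ i, U C R i (tgt C l i) =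
        ∑ i, 2 * ∑ j, U C R i (C.out j, true) := by
      rw [← Finset.mul_sum, h1, Finset.mul_sum]
    rw [e]
    exact Finset.sum_le_sum fun i _ => U_sum C R hinj hR i
  obtain ⟨l, _, hl⟩ := Finset.exists_le_of_sum_le Finset.univ_nonempty h2
  exact ⟨l, hl⟩

/-- The network of a circuit for `F_n`. -/
theorem exists_network (hn : 2 ≤ n) (C : Circuit (Fin n) (Fin n)) (hC : C.Comp (dftMat n)) :
    ∃ (N : Network (Fin n)) (K : Type) (_ : Field K) (_ : Finite K),
      Fintype.card N.E ≤ 8 * Fintype.card C.G + 2 * n ∧ N.MaxDegree 3 ∧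
      Nonempty (LinearCode N K) ∧
      ∀ γ, N.Routable γ → n * (Real.logb 2 n - 1) ≤ 4 * γ * Fintype.card N.E := by
  classical
  have : NeZero n := ⟨by omega⟩
  obtain ⟨f, hf, hout⟩ := hC
  have hinj : Function.Injective C.out := by
    intro j j' h
    have h1 := hout j ⟨1, by omega⟩
    rw [h, hout] at h1
    change zeta n ^ ((j' : ℕ) * 1) = zeta n ^ ((j : ℕ) * 1) at h1
    rw [mul_one, mul_one] at h1
    exact Fin.ext ((zeta_prim (by omega : n ≠ 0)).pow_inj j'.2 j.2 h1).symm
  set R := Nat.log 4 (n / 2) + 1 with hRdef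
  have hR : 4 ^ (R - 1) ≤ n / 2 := Nat.pow_log_le_self 4 (by omega)
  have hR' : n / 2 < 4 ^ R := Nat.lt_pow_succ_log_self (by norm_num) _
  obtain ⟨l, hl⟩ := exists_shift C R hinj hR
  have hval := two_isVal C hf (fun j => zeta n ^ ((l : ℕ) * (j : ℕ)))
  have ht : ∀ i, twoVal C f (fun j => zeta n ^ ((l : ℕ) * (j : ℕ))) (tgt C l i) =
      (n : ℂ) • (Pi.single i 1 : Fin n → ℂ) := fun i => two_out C hout l i
  obtain ⟨K, hK1, hK2, coef', val', hval', hnK, ht'⟩ := hval.to_finite (tgt C l) (NeZero.ne n) ht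
  have hcode := Prog.code (two C) hval' (tgt C l) (fun _ => (n : K)) (fun _ => hnK) ht'
  refine ⟨(two C).net (inp C) (tgt C l), K, hK1, hK2, ?_, (two C).net_degree _ _, ⟨hcode⟩, ?_⟩
  · have h1 : Fintype.card ((two C).net (inp C) (tgt C l)).E = Fintype.card (two C).W * 2 := by
      change Fintype.card ((two C).W × Bool) = _
      rw [Fintype.card_prod, Fintype.card_bool]
    have h2 := card_wires C
    rw [h1]
    omega
  · intro γ hγ
    have h1 := hγ.sum_pot_le R
    have h2 : ∑ i, (pot ((two C).net (inp C) (tgt C l)).fst ((two C).net (inp C) (tgt C l)).snd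
        (((two C).net (inp C) (tgt C l)).src i) R
        (((two C).net (inp C) (tgt C l)).snk i) : ℝ) = ∑ i, (U C R i (tgt C l i) : ℝ) := rfl
    rw [h2] at h1
    have h3 : (R : ℝ) * n ≤ 2 * ∑ i, (U C R i (tgt C l i) : ℝ) := by exact_mod_cast hl
    have h4 : Real.logb 2 n ≤ 2 * R + 1 := by
      have h5 : n ≤ 2 ^ (2 * R + 1) := by
        have : (2 : ℕ) ^ (2 * R + 1) = 2 * 4 ^ R := by
          rw [pow_succ, pow_mul]
          norm_num
          ring
        omega
      rw [Real.logb_le_iff_le_rpow (by norm_num) (by exact_mod_cast (by omega : 0 < n))]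
      have h6 : (n : ℝ) ≤ 2 ^ (2 * R + 1) := by exact_mod_cast h5
      calc (n : ℝ) ≤ 2 ^ (2 * R + 1) := h6
        _ = (2 : ℝ) ^ ((2 * R + 1 : ℕ) : ℝ) := (Real.rpow_natCast _ _).symm
        _ = _ := by push_cast; rfl
    have h5 : (0 : ℝ) ≤ n := Nat.cast_nonneg _
    nlinarith

/-- The network coding conjecture, up to a constant factor, implies Q1. -/
theorem Q1_of_NC {γ : ℝ} (h : NetworkCodingConjecture γ) :
    ∃ c : ℝ, 0 < c ∧ ∀ᶠ n : ℕ in atTop, c * (n * Real.logb 2 n) ≤ L n := by
  have key : ∀ n : ℕ, 4 ≤ n → 0 < γ ∧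
      n * (Real.logb 2 n - 1) ≤ 4 * γ * (8 * L n + 2 * n) := by
    intro n hn
    obtain ⟨C, hC, hcard⟩ := (isLeast_comp (by omega : 1 ≤ n)).1
    obtain ⟨N, K, _, _, hE, hdeg, hcode, hrout⟩ := exists_network (by omega) C hC
    have h1 := hrout γ (h n N K hdeg hcode)
    have h2 : (2 : ℝ) ≤ Real.logb 2 n := by
      rw [Real.le_logb_iff_rpow_le (by norm_num) (by exact_mod_cast (by omega : 0 < n))]
      norm_num
      exact hn
    have hn0 : (0 : ℝ) < n := by exact_mod_cast (by omega : 0 < n)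
    have h3 : 0 < 4 * γ * Fintype.card N.E := lt_of_lt_of_le (by nlinarith) h1
    have hγ : 0 < γ := by
      by_contra hcon
      have : 4 * γ * Fintype.card N.E ≤ 0 :=
        mul_nonpos_of_nonpos_of_nonneg (by linarith [not_lt.1 hcon]) (Nat.cast_nonneg _)
      linarith
    refine ⟨hγ, h1.trans ?_⟩
    have h4 : (Fintype.card N.E : ℝ) ≤ 8 * L n + 2 * n := by
      rw [hcard] at hE
      exact_mod_cast hE
    exact mul_le_mul_of_nonneg_left h4 (by linarith)
  have hγ := (key 4 le_rfl).1
  refine ⟨1 / (64 * γ), by positivity, ?_⟩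
  have hlog : Tendsto (fun n : ℕ => Real.logb 2 (n : ℝ)) atTop atTop :=
    (Real.tendsto_logb_atTop (by norm_num)).comp tendsto_natCast_atTop_atTop
  filter_upwards [eventually_ge_atTop 4, hlog.eventually_ge_atTop (2 * (1 + 8 * γ))] with n hn hl
  have h1 := (key n hn).2
  have hn0 : (0 : ℝ) < n := by exact_mod_cast (by omega : 0 < n)
  rw [div_mul_eq_mul_div, one_mul, div_le_iff₀ (by positivity)]
  have h2 : (n : ℝ) * (2 * (1 + 8 * γ)) ≤ n * Real.logb 2 n :=
    mul_le_mul_of_nonneg_left hl hn0.le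
  nlinarith

end Vale.Agent.P344.NC
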