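import Vale.Agent.P344.H120.NFlow

/-!
# From programs of fan-in two to networks of degree three
-/

set_option linter.unusedSectionVars false

namespace Vale.Agent.P344.NC

open Finset

/-- A straight-line program with at most two arguments per cell. -/
structure Prog (X : Type) where
  rk : X → ℕ
  rk_inj : Function.Injective rk
  arg : X → Bool → Option X
  arg_lt : ∀ x b y, arg x b = some y → rk y < rk x

variable {X ι : Type} [Fintype X] [DecidableEq X]

/-- The values of a linear program. -/
def Prog.IsVal (P : Prog X) {R : Type} [CommRing R] [DecidableEq ι] (inp : ι → X)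
    (coef : X → Bool → R) (val : X → ι → R) : Prop :=
  ∀ x i, val x i = (if inp i = x then 1 else 0) +
    ∑ b, (P.arg x b).elim 0 fun y => coef x b * val y i

/-- The wires. -/
def Prog.W (P : Prog X) : Type := {w : X × Bool // (P.arg w.1 w.2).isSome}

instance (P : Prog X) : Fintype P.W := inferInstanceAs (Fintype {_w : X × Bool // _})
instance (P : Prog X) : DecidableEq P.W := inferInstanceAs (DecidableEq {_w : X × Bool // _})

/-- The cell read by a wire. -/
def Prog.from_ (P : Prog X) (w : P.W) : X := (P.arg w.1.1 w.1.2).get w.2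

theorem Prog.arg_eq (P : Prog X) (w : P.W) : P.arg w.1.1 w.1.2 = some (P.from_ w) :=
  (Option.some_get w.2).symm

/-- An ordering of the wires. -/
def Prog.ord (P : Prog X) (w : P.W) : ℕ := 2 * P.rk w.1.1 + (if w.1.2 then 1 else 0)

theorem Prog.ord_inj (P : Prog X) : Function.Injective P.ord := by
  rintro ⟨⟨x, b⟩, hw⟩ ⟨⟨x', b'⟩, hw'⟩ h
  have hx : x = x' := by
    apply P.rk_inj
    simp only [Prog.ord] at h
    cases b <;> cases b' <;> simp at h <;> omega
  have hb : b = b' := by
    subst hx
    simp only [Prog.ord] at h
    cases b <;> cases b' <;> simp at h <;> rfl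
  subst hx hb
  rfl

/-- The earlier wires that read the same cell. -/
def Prog.before (P : Prog X) (w : P.W) : Finset P.W :=
  univ.filter fun w' => P.from_ w' = P.from_ w ∧ P.ord w' < P.ord w

/-- The previous vertex on the bus of a cell. -/
noncomputable def Prog.prev (P : Prog X) (w : P.W) : X ⊕ P.W :=
  open Classical in
  if h : (P.before w).Nonempty then Sum.inr ((P.before w).exists_max_image P.ord h).choose
  else Sum.inl (P.from_ w)

theorem Prog.prev_cases (P : Prog X) (w : P.W) :
    (P.prev w = Sum.inl (P.from_ w) ∧ ∀ w', P.from_ w' = P.from_ w → P.ord w ≤ P.ord w') ∨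
    ∃ w', P.prev w = Sum.inr w' ∧ P.from_ w' = P.from_ w ∧ P.ord w' < P.ord w ∧
      ∀ w'', P.from_ w'' = P.from_ w → P.ord w'' < P.ord w → P.ord w'' ≤ P.ord w' := by
  by_cases h : (P.before w).Nonempty
  · right
    have hs := ((P.before w).exists_max_image P.ord h).choose_spec
    set w' := ((P.before w).exists_max_image P.ord h).choose with hw'
    refine ⟨w', by rw [Prog.prev, dif_pos h], ?_, ?_, ?_⟩
    · have := hs.1
      rw [Prog.before, Finset.mem_filter] at this
      exact this.2.1
    · have := hs.1
      rw [Prog.before, Finset.mem_filter] at this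
      exact this.2.2
    · intro w'' h1 h2
      exact hs.2 w'' (by rw [Prog.before, Finset.mem_filter]; exact ⟨Finset.mem_univ _, h1, h2⟩)
  · left
    refine ⟨by rw [Prog.prev, dif_neg h], fun w' hw' => ?_⟩
    by_contra hcon
    exact h ⟨w', by rw [Prog.before, Finset.mem_filter]
                    exact ⟨Finset.mem_univ _, hw', not_le.1 hcon⟩⟩

theorem Prog.prev_inj (P : Prog X) : Function.Injective P.prev := by
  intro w₁ w₂ h
  rcases P.prev_cases w₁ with ⟨h1, m1⟩ | ⟨u₁, h1, f1, o1, m1⟩
  · rcases P.prev_cases w₂ with ⟨h2, m2⟩ | ⟨u₂, h2, f2, o2, m2⟩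
    · rw [h1, h2] at h
      have h := Sum.inl_injective h
      exact P.ord_inj (le_antisymm (m1 _ h.symm) (m2 _ h))
    · rw [h1, h2] at h
      exact absurd h (by simp)
  · rcases P.prev_cases w₂ with ⟨h2, m2⟩ | ⟨u₂, h2, f2, o2, m2⟩
    · rw [h1, h2] at h
      exact absurd h (by simp)
    · rw [h1, h2] at h
      have h := Sum.inr_injective h
      subst h
      by_contra hne
      have hne' : P.ord w₁ ≠ P.ord w₂ := fun h => hne (P.ord_inj h)
      rcases Nat.lt_or_gt_of_ne hne' with hlt | hlt
      · have := m2 w₁ (f1.symm.trans f2) hlt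
        omega
      · have := m1 w₂ (f2.symm.trans f1) hlt
        omega

/-- The network of a program: the vertices are the cells and the wires. -/
noncomputable def Prog.net (P : Prog X) (s t : ι → X) : Network ι where
  V := X ⊕ P.W
  E := P.W × Bool
  finV := inferInstance
  decV := inferInstance
  finE := inferInstance
  fst e := if e.2 then Sum.inr e.1 else P.prev e.1
  snd e := if e.2 then Sum.inl e.1.1.1 else Sum.inr e.1
  src i := Sum.inl (s i)
  snk i := Sum.inl (t i)

theorem Prog.net_degree_aux (P : Prog X) (v : X ⊕ P.W) :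
    (univ.filter fun e : P.W × Bool =>
      (if e.2 then (Sum.inr e.1 : X ⊕ P.W) else P.prev e.1) = v ∨
      (if e.2 then (Sum.inl e.1.1.1 : X ⊕ P.W) else Sum.inr e.1) = v).card ≤ 3 := by
  -- the edges that start on `v` by `prev`
  have hA1 : (univ.filter fun e : P.W × Bool => e.2 = false ∧ P.prev e.1 = v).card ≤ 1 := by
    refine Finset.card_le_one.2 fun e he e' he' => ?_
    rw [Finset.mem_filter] at he he'
    have h1 := P.prev_inj (he.2.2.trans he'.2.2.symm)
    exact Prod.ext h1 (he.2.1.trans he'.2.1.symm)
  rcases v with x | w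
  · have hB : (univ.filter fun e : P.W × Bool => e.2 = true ∧ e.1.1.1 = x).card ≤ 2 := by
      have h := Finset.card_le_card_of_injOn (s := univ.filter fun e : P.W × Bool =>
        e.2 = true ∧ e.1.1.1 = x) (t := (univ : Finset Bool)) (fun e => e.1.1.2)
        (fun _ _ => Finset.mem_coe.2 (Finset.mem_univ _)) (by
          intro e he e' he' h
          have he := (Finset.mem_filter.1 (Finset.mem_coe.1 he)).2
          have he' := (Finset.mem_filter.1 (Finset.mem_coe.1 he')).2
          refine Prod.ext (Subtype.ext (Prod.ext (he.2.trans he'.2.symm) h))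
            (he.1.trans he'.1.symm))
      simpa using h
    refine (Finset.card_le_card (t := (univ.filter fun e : P.W × Bool =>
      e.2 = false ∧ P.prev e.1 = Sum.inl x) ∪
      (univ.filter fun e : P.W × Bool => e.2 = true ∧ e.1.1.1 = x)) ?_).trans
      ((Finset.card_union_le _ _).trans (by omega))
    rintro ⟨w, b⟩ he
    have he := (Finset.mem_filter.1 he).2
    rw [Finset.mem_union, Finset.mem_filter, Finset.mem_filter]
    cases b with
    | false =>
      simp only [Bool.false_eq_true, if_false, reduceCtorEq, or_false] at he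
      exact Or.inl ⟨Finset.mem_univ _, rfl, he⟩
    | true =>
      simp only [if_true, reduceCtorEq, false_or, Sum.inl.injEq] at he
      exact Or.inr ⟨Finset.mem_univ _, rfl, he⟩
  · refine (Finset.card_le_card (t := (univ.filter fun e : P.W × Bool =>
      e.2 = false ∧ P.prev e.1 = Sum.inr w) ∪ {(w, false), (w, true)}) ?_).trans
      ((Finset.card_union_le _ _).trans (by
        have := Finset.card_le_two (a := (w, false)) (b := (w, true))
        omega))
    rintro ⟨w', b⟩ he
    have he := (Finset.mem_filter.1 he).2
    rw [Finset.mem_union, Finset.mem_filter]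
    cases b with
    | false =>
      simp only [Bool.false_eq_true, if_false, Sum.inr.injEq] at he
      rcases he with he | he
      · exact Or.inl ⟨Finset.mem_univ _, rfl, he⟩
      · right
        simp [he]
    | true =>
      simp only [if_true, reduceCtorEq, or_false, Sum.inr.injEq] at he
      right
      simp [he]

theorem Prog.net_degree (P : Prog X) (s t : ι → X) : (P.net s t).MaxDegree 3 :=
  fun v => P.net_degree_aux v

theorem Prog.ord_lt_of_from (P : Prog X) {w w' : P.W} (h : P.from_ w = w'.1.1) :
    P.ord w' < P.ord w := by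
  have h1 := P.arg_lt _ _ _ (P.arg_eq w)
  rw [h] at h1
  simp only [Prog.ord]
  split_ifs <;> omega

theorem Prog.IsVal.mem {P : Prog X} [Fintype ι] [DecidableEq ι] {K : Type} [Field K]
    {inp : ι → X} {coef : X → Bool → K} {val : X → ι → K} (hval : P.IsVal inp coef val)
    (S : Submodule K (ι → K)) (x : X) (h1 : ∀ i, inp i = x → (Pi.single i 1 : ι → K) ∈ S)
    (h2 : ∀ w : P.W, w.1.1 = x → val (P.from_ w) ∈ S) : val x ∈ S := by
  have hv : val x = (∑ i, if inp i = x then
      (Pi.single i 1 : ι → K) else 0) + ∑ b, (P.arg x b).elim 0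
        fun y => coef x b • val y := by
    funext i
    rw [hval, Pi.add_apply, Finset.sum_apply, Finset.sum_apply]
    congr 1
    · rw [Finset.sum_eq_single i]
      · split_ifs <;> simp
      · intro j _ hj
        split_ifs <;> simp [hj.symm]
      · intro hi
        exact absurd (Finset.mem_univ _) hi
    · refine Finset.sum_congr rfl fun b _ => ?_
      cases P.arg x b <;> simp
  rw [hv]
  refine Submodule.add_mem _ (Submodule.sum_mem _ fun i _ => ?_)
    (Submodule.sum_mem _ fun b _ => ?_)
  · by_cases hi : inp i = x
    · rw [if_pos hi]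
      exact h1 i hi
    · rw [if_neg hi]
      exact Submodule.zero_mem _
  · cases hy : P.arg x b with
    | none => exact Submodule.zero_mem _
    | some y =>
      refine Submodule.smul_mem _ _ ?_
      let w' : P.W := ⟨(x, b), by simp [hy]⟩
      have hw' : P.from_ w' = y := by
        have := P.arg_eq w'
        rw [hy] at this
        exact (Option.some_injective _ this).symm
      rw [← hw']
      exact h2 w' rfl

/-- The code. -/
noncomputable def Prog.code (P : Prog X) [Fintype ι] [DecidableEq ι] {K : Type} [Field K]
    {inp : ι → X} {coef : X → Bool → K} {val : X → ι → K} (hval : P.IsVal inp coef val)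
    (t : ι → X) (lam : ι → K) (hlam : ∀ i, lam i ≠ 0)
    (ht : ∀ i, val (t i) = lam i • (Pi.single i 1 : ι → K)) : LinearCode (P.net inp t) K where
  tail := fun e => (P.net inp t).fst e
  head := fun e => (P.net inp t).snd e
  ends := fun e => Or.inl ⟨rfl, rfl⟩
  time := fun e => 2 * P.ord e.1 + (if e.2 then 1 else 0)
  sym := fun e => val (P.from_ e.1)
  causal := by
    rintro ⟨w, b⟩
    cases b with
    | true =>
      refine Submodule.subset_span (Or.inr ⟨(w, false), ?_, ?_, rfl⟩)
      · simp [Prog.net]
      · simp
    | false =>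
      rcases P.prev_cases w with ⟨h1, _⟩ | ⟨u, h1, f1, o1, _⟩
      · refine hval.mem _ _ (fun i hi => ?_) fun w' hw' => ?_
        · refine Submodule.subset_span (Or.inl ⟨i, ?_, rfl⟩)
          simp only [Prog.net, Bool.false_eq_true, if_false, h1, hi]
        · refine Submodule.subset_span (Or.inr ⟨(w', true), ?_, ?_, rfl⟩)
          · simp only [Prog.net, Bool.false_eq_true, if_false, if_true, h1, hw']
          · have : P.ord w' < P.ord w := P.ord_lt_of_from hw'.symm
            change 2 * P.ord w' + 1 < 2 * P.ord w + 0
            omega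
      · refine Submodule.subset_span (Or.inr ⟨(u, false), ?_, ?_, ?_⟩)
        · simp only [Prog.net, Bool.false_eq_true, if_false, h1]
        · simpa using o1
        · simp only [f1]
  decode := by
    intro i
    have hs : (Pi.single i 1 : ι → K) = (lam i)⁻¹ • val (t i) := by
      rw [ht, smul_smul, inv_mul_cancel₀ (hlam i), one_smul]
    rw [hs]
    refine Submodule.smul_mem _ _ ?_
    refine hval.mem _ _ (fun i hi => ?_) fun w' hw' => ?_
    · refine Submodule.subset_span (Or.inl ⟨i, ?_, rfl⟩)
      simp only [Prog.net, hi]
    · refine Submodule.subset_span (Or.inr ⟨(w', true), ?_, rfl⟩)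
      simp only [Prog.net, if_true, hw']

end Vale.Agent.P344.NC
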